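import Vale.Agent.P274.Full.Inner.Disc

/-!
Dependence of the discs on the parameter of the homotopy, the base point and the perturbation.
-/

open Filter Metric Set Function Topology MeasureTheory

namespace Vale.Agent.P274.Full

noncomputable section

theorem sq_le_of_le_add₃ {X d p q r : ℝ} (hX : 0 ≤ X) (h : X ≤ 1 / 3 * d + (p + q + r)) :
    X ^ 2 ≤ 2 / 9 * d ^ 2 + (6 * p ^ 2 + (6 * q ^ 2 + 6 * r ^ 2)) := by
  refine (pow_le_pow_left₀ hX h 2).trans ?_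
  nlinarith [sq_nonneg (1 / 3 * d - (p + q + r)), sq_nonneg (p - q), sq_nonneg (p - r),
    sq_nonneg (q - r)]

theorem avg_lin₄ {f₁ f₂ f₃ f₄ : ℝ → ℝ} (a b c d : ℝ) (h₁ : Continuous f₁) (h₂ : Continuous f₂)
    (h₃ : Continuous f₃) (h₄ : Continuous f₄) :
    avg (fun θ => a * f₁ θ + (b * f₂ θ + (c * f₃ θ + d * f₄ θ))) =
      a * avg f₁ + (b * avg f₂ + (c * avg f₃ + d * avg f₄)) := by
  rw [avg_add (f := fun θ => a * f₁ θ) (g := fun θ => b * f₂ θ + (c * f₃ θ + d * f₄ θ))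
      (by fun_prop) (by fun_prop),
    avg_add (f := fun θ => b * f₂ θ) (g := fun θ => c * f₃ θ + d * f₄ θ) (by fun_prop) (by fun_prop),
    avg_add (f := fun θ => c * f₃ θ) (g := fun θ => d * f₄ θ) (by fun_prop) (by fun_prop),
    avg_mul_const, avg_mul_const, avg_mul_const, avg_mul_const]

theorem avg_lin₅ {f₁ f₂ f₃ f₄ f₅ : ℝ → ℝ} (a b c d e : ℝ) (h₁ : Continuous f₁)
    (h₂ : Continuous f₂) (h₃ : Continuous f₃) (h₄ : Continuous f₄) (h₅ : Continuous f₅) :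
    avg (fun θ => a * f₁ θ + b * f₂ θ + c * f₃ θ + d * f₄ θ + e * f₅ θ) =
      a * avg f₁ + b * avg f₂ + c * avg f₃ + d * avg f₄ + e * avg f₅ := by
  rw [avg_add (f := fun θ => a * f₁ θ + b * f₂ θ + c * f₃ θ + d * f₄ θ) (g := fun θ => e * f₅ θ)
      (by fun_prop) (by fun_prop),
    avg_add (f := fun θ => a * f₁ θ + b * f₂ θ + c * f₃ θ) (g := fun θ => d * f₄ θ)
      (by fun_prop) (by fun_prop),
    avg_add (f := fun θ => a * f₁ θ + b * f₂ θ) (g := fun θ => c * f₃ θ) (by fun_prop) (by fun_prop),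
    avg_add (f := fun θ => a * f₁ θ) (g := fun θ => b * f₂ θ) (by fun_prop) (by fun_prop),
    avg_mul_const, avg_mul_const, avg_mul_const, avg_mul_const, avg_mul_const]

variable {N₀ m k : ℕ} {D : CDom N₀} {P : Patch D m k} {W : Win P} {cf : Cfg W}

namespace Inp

theorem norm_val_sub_param (i j : Inp cf) (hx : i.x = j.x) (hβ : i.β = j.β) (c : Cf cf.N k)
    (θ : ℝ) : ‖i.val c θ - j.val c θ‖ ≤ (2 * W.C + 1) * cf.t₀ * |i.s - j.s| := by
  have hb0 := bump_nonneg cf.α 2 θ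
  have hb1 := bump_le_one cf.α 2 θ
  have htm : |i.tm θ - j.tm θ| ≤ 2 * cf.t₀ * |i.s - j.s| := by
    rw [show i.tm θ - j.tm θ = (i.s - j.s) *
      ((cf.α * cf.t₀ - cf.t₀) + (1 - cf.α) * cf.t₀ * bump cf.α 2 θ) by
        simp only [tm, a]; ring, abs_mul, mul_comm (2 * cf.t₀)]
    refine mul_le_mul_of_nonneg_left (abs_le.2 ?_) (abs_nonneg _)
    have h2 : 0 ≤ (1 - cf.α) * cf.t₀ := mul_nonneg (by linarith [cf.α_le]) cf.t₀_pos.le
    have h3 := mul_le_of_le_one_right h2 hb1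
    have h4 := mul_nonneg cf.α_pos.le cf.t₀_pos.le
    have h5 := mul_nonneg h2 hb0
    have := cf.t₀_pos
    constructor <;> nlinarith
  have hbb : ‖i.bb θ - j.bb θ‖ ≤ cf.t₀ * |i.s - j.s| := by
    rw [bb, bb, ← hβ, ← sub_smul, norm_smul, ← sub_mul, Real.norm_eq_abs, abs_mul,
      abs_of_nonneg (bump_nonneg _ _ _), mul_comm cf.t₀]
    exact mul_le_mul (mul_le_of_le_one_right (abs_nonneg _) (bump_le_one _ _ _)) i.hβ
      (norm_nonneg _) (abs_nonneg _)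
  rw [val, val, ← hx, add_sub_add_comm]
  refine (norm_add_le _ _).trans ?_
  have h := W.norm_field_sub i.hx (rv (bd c θ)) (rv (bd c θ)) (i.tm_mem' θ) (j.tm_mem' θ)
  rw [sub_self, norm_zero, mul_zero, zero_add] at h
  have := mul_le_mul_of_nonneg_left htm W.C_nonneg
  linarith

theorem norm_sol_sub_param (i j : Inp cf) (hx : i.x = j.x) (hβ : i.β = j.β) :
    ‖i.sol - j.sol‖ ≤ 3 * ((2 * W.C + 1) * cf.t₀) * |i.s - j.s| := by
  have h := ContractingWith.dist_fixedPoint_fixedPoint_of_dist_le' i.contracting j.step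
    (C := 2 * ((2 * W.C + 1) * cf.t₀) * |i.s - j.s|)
    i.contracting.fixedPoint_isFixedPt j.contracting.fixedPoint_isFixedPt fun c => ?_
  · rw [dist_eq_norm] at h
    refine h.trans (le_of_eq ?_)
    push_cast
    ring
  have hK : 0 ≤ (2 * W.C + 1) * cf.t₀ * |i.s - j.s| :=
    mul_nonneg (mul_nonneg (by linarith [W.C_nonneg]) cf.t₀_pos.le) (abs_nonneg _)
  rw [dist_eq_norm, step, step, ← proj_sub (i.continuous_val c) (j.continuous_val c)]
  refine le_of_pow_le_pow_left₀ two_ne_zero (by linarith) ?_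
  refine (norm_sq_proj_le ((i.continuous_val c).sub (j.continuous_val c))).trans ?_
  refine (mul_le_mul_of_nonneg_left (avg_mono
    (((i.continuous_val c).sub (j.continuous_val c)).norm.pow 2) continuous_const
    fun θ => pow_le_pow_left₀ (norm_nonneg _) (i.norm_val_sub_param j hx hβ c θ) 2)
    zero_le_two).trans ?_
  rw [avg_const]
  nlinarith [sq_nonneg ((2 * W.C + 1) * cf.t₀ * |i.s - j.s|)]

theorem norm_mean_sub_param (i j : Inp cf) (hx : i.x = j.x) (hβ : i.β = j.β) :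
    ‖i.mean - j.mean‖ ≤ ((cf.N : ℝ) * 3 + 1) * ((2 * W.C + 1) * cf.t₀) * |i.s - j.s| := by
  rw [mean, mean, ← avg_sub (i.continuous_val _) (j.continuous_val _)]
  refine (norm_avg_le _).trans ((avg_mono ((i.continuous_val _).sub (j.continuous_val _)).norm
    continuous_const fun θ => ?_).trans (le_of_eq (avg_const _)))
  have h1 := i.norm_val_sub_param j hx hβ i.sol θ
  have h2 := j.norm_val_sub i.sol j.sol θ
  have h3 : ‖rv (bd (i.sol - j.sol) θ)‖ ≤ (cf.N : ℝ) * ‖i.sol - j.sol‖ := by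
    refine ((norm_rv_le _).trans (norm_pol_le _ (norm_cir θ).le)).trans ?_
    refine (Finset.sum_le_sum fun l _ => PiLp.norm_apply_le (i.sol - j.sol) l).trans (le_of_eq ?_)
    rw [Finset.sum_const, Finset.card_univ, Fintype.card_fin, nsmul_eq_mul]
  have h4 := mul_le_mul_of_nonneg_left (i.norm_sol_sub_param j hx hβ) (Nat.cast_nonneg (α := ℝ) cf.N)
  have h5 := norm_sub_le_norm_sub_add_norm_sub (i.val i.sol θ) (j.val i.sol θ) (j.val j.sol θ)
  have h6 := norm_nonneg (rv (bd (i.sol - j.sol) θ))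
  show ‖i.val i.sol θ - j.val j.sol θ‖ ≤ _
  linarith

variable (i : Inp cf)

theorem sol_eq_zero (hs : i.s = 0) : i.sol = 0 := by
  refine (i.contracting.fixedPoint_unique ?_).symm
  show i.step 0 = 0
  have e : i.val 0 = fun _ => W.H.e i.x cf.t₀ := by
    funext θ
    have h0 : rv (bd (0 : Cf cf.N k) θ) = 0 := by simp [bd, pol_zero, ← rvL_apply]
    rw [val, h0, W.field_zero, bb, hs]
    simp [tm, a, hs]
  rw [step, e, proj_const]

theorem mean_eq (hs : i.s = 0) : i.mean = W.H.e i.x cf.t₀ := by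
  have e : i.val i.sol = fun _ => W.H.e i.x cf.t₀ := by
    funext θ
    have h0 : rv (bd i.sol θ) = 0 := by simp [i.sol_eq_zero hs, bd, pol_zero, ← rvL_apply]
    rw [val, h0, W.field_zero, bb, hs]
    simp [tm, a, hs]
  rw [mean, e, avg_const]

/-! ### The centre -/

/-- The mean height without the perturbation. -/
def core : Rn k :=
  avg fun θ => tay P.h i.x (ins m (i.w θ)) + W.H.e (W.pt i.x (i.w θ)) (i.tm θ)

theorem continuous_pt : Continuous fun θ => W.pt i.x (i.w θ) :=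
  continuous_const.add ((continuous_ins m).comp ((continuous_clp W.b).comp i.continuous_w))

theorem continuous_e : Continuous fun θ => W.H.e (W.pt i.x (i.w θ)) (i.tm θ) :=
  W.H.cont.comp_continuous (i.continuous_pt.prodMk i.continuous_tm)
    fun θ => ⟨W.sub (W.pt_mem i.hx _), (i.tm_mem' θ).1, (i.tm_mem' θ).2⟩

theorem continuous_tay (hw : ∀ θ, ‖i.w θ‖ ≤ W.b) :
    Continuous fun θ => tay P.h i.x (ins m (i.w θ)) := by
  have e : (fun θ => tay P.h i.x (ins m (i.w θ))) = fun θ => P.h (W.pt i.x (i.w θ)) - P.h i.x -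
      fderiv ℝ P.h i.x (ins m (i.w θ)) :=
    funext fun θ => by rw [tay, Win.pt, clp_eq (hw θ)]
  rw [e]
  exact ((P.smooth_h.continuousOn.comp_continuous i.continuous_pt
    fun θ => W.H.sub (W.sub (W.pt_mem i.hx _))).sub continuous_const).sub
      ((fderiv ℝ P.h i.x).continuous.comp ((continuous_ins m).comp i.continuous_w))

theorem mean_eq_core (hw : ∀ θ, ‖i.w θ‖ ≤ W.b) :
    i.mean = i.core + (i.s * avg (bump cf.α 1)) • i.β := by
  have hb := continuous_bump cf.α 1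
  have e : i.val i.sol = fun θ => fderiv ℝ P.h i.x (ins m (i.w θ)) +
      (tay P.h i.x (ins m (i.w θ)) + W.H.e (W.pt i.x (i.w θ)) (i.tm θ)) + i.bb θ := by
    funext θ
    rw [val, ← w, Win.field, tay, Win.pt, clp_eq (hw θ)]
    abel
  have hL : avg (fun θ => fderiv ℝ P.h i.x (ins m (i.w θ))) = 0 := by
    rw [show (fun θ => fderiv ℝ P.h i.x (ins m (i.w θ))) = fun θ =>
      ((fderiv ℝ P.h i.x).comp ((ContinuousLinearMap.inr ℝ (Cn m) (Rn k)).comp (rvL k)))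
        (bd i.sol θ) from rfl, avg_clm _ (continuous_bd _), avg_bd, map_zero]
  have hbb : avg i.bb = (i.s * avg (bump cf.α 1)) • i.β := by
    rw [show i.bb = fun θ => ((ContinuousLinearMap.id ℝ ℝ).smulRight i.β) (i.s * bump cf.α 1 θ) from
      rfl, avg_clm _ (by fun_prop), avg_mul_const]
    rfl
  have hc1 : Continuous fun θ => fderiv ℝ P.h i.x (ins m (i.w θ)) :=
    (fderiv ℝ P.h i.x).continuous.comp ((continuous_ins m).comp i.continuous_w)
  have hc2 : Continuous fun θ =>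
      tay P.h i.x (ins m (i.w θ)) + W.H.e (W.pt i.x (i.w θ)) (i.tm θ) :=
    (i.continuous_tay hw).add i.continuous_e
  have hc3 : Continuous fun θ => fderiv ℝ P.h i.x (ins m (i.w θ)) +
      (tay P.h i.x (ins m (i.w θ)) + W.H.e (W.pt i.x (i.w θ)) (i.tm θ)) := hc1.add hc2
  rw [mean, e, avg_add hc3 i.continuous_bb, avg_add hc1 hc2, hL, zero_add, hbb, core]

theorem avg_tm_le (hs : i.s = 1) : avg i.tm ≤ 2 * cf.α * cf.t₀ := by
  have hb := continuous_bump cf.α 2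
  have h := avg_bump_le cf.α_pos (zero_le_two : (0 : ℝ) ≤ 2)
  have h2 : 0 ≤ (1 - cf.α) * cf.t₀ := mul_nonneg (by linarith [cf.α_le]) cf.t₀_pos.le
  rw [show i.tm = fun θ => cf.α * cf.t₀ + (1 - cf.α) * cf.t₀ * bump cf.α 2 θ from
    funext fun θ => by simp [tm, a, hs],
    avg_add continuous_const (by fun_prop), avg_const, avg_mul_const]
  have h3 := mul_le_mul_of_nonneg_left h h2
  have h4 := mul_nonneg (mul_nonneg cf.α_pos.le cf.α_pos.le) cf.t₀_pos.le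
  nlinarith

theorem avg_sq_tm_le (hs : i.s = 1) : avg (fun θ => i.tm θ ^ 2) ≤ 2 * cf.α * cf.t₀ ^ 2 := by
  have h := avg_mono (i.continuous_tm.pow 2) (continuous_const.mul i.continuous_tm)
    (f := fun θ => i.tm θ ^ 2) (g := fun θ => cf.t₀ * i.tm θ) fun θ => by
      rw [pow_two]
      exact mul_le_mul_of_nonneg_right (i.tm_mem θ).2 (i.tm_mem' θ).1
  rw [avg_mul_const] at h
  have := mul_le_mul_of_nonneg_left (i.avg_tm_le hs) cf.t₀_pos.le
  linarith

theorem norm_core_le (hs : i.s = 1) (hw : ∀ θ, ‖i.w θ‖ ≤ W.b) :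
    ‖i.core‖ ≤ cf.α * (3 * W.L * ((W.C + 1) * cf.t₀) ^ 2 + 2 * W.C * cf.t₀) := by
  have hcw := i.continuous_w
  have hct := i.continuous_tm
  refine (norm_avg_le _).trans ((avg_mono ((i.continuous_tay hw).add i.continuous_e).norm
    (by fun_prop) (g := fun θ => W.L * ‖i.w θ‖ ^ 2 + W.C * i.tm θ) fun θ => ?_).trans ?_)
  · refine (norm_add_le _ _).trans (add_le_add ?_ ?_)
    · have hb : ‖ins m (i.w θ)‖ ≤ W.R := by
        rw [norm_ins, ← clp_eq (hw θ)]; exact W.norm_clp _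
      have h := W.tay_w i.x i.hx (ins m (i.w θ)) 0 hb (by simp [W.R_pos.le])
      rw [tay_zero, sub_zero, sub_zero, norm_zero, add_zero, norm_ins] at h
      linarith
    · have h := W.lip_t _ (W.sub (W.pt_mem i.hx (i.w θ))) (i.tm θ) (i.tm_mem' θ) 0
        ⟨le_rfl, W.H.t₀_pos.le⟩
      rw [W.H.e_zero _ (W.sub (W.pt_mem i.hx _)), sub_zero, sub_zero,
        abs_of_nonneg (i.tm_mem' θ).1] at h
      exact h
  · rw [avg_add (by fun_prop) (by fun_prop), avg_mul_const, avg_mul_const]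
    have h1 := mul_le_mul_of_nonneg_left i.avg_sq_w_le W.L_nonneg
    have h2 := mul_le_mul_of_nonneg_left (i.avg_tm_le hs) W.C_nonneg
    linarith

/-- The constant measuring the change of the real part of the disc with the base point. -/
def k₄ (W : Win P) : ℝ := 2 * W.L * (W.C + 1) + 2 * W.C

theorem avg_sq_w_sub_le (j : Inp cf) (hs : i.s = 1) (hs' : j.s = 1) :
    avg (fun θ => ‖i.w θ - j.w θ‖ ^ 2) ≤
      9 * cf.α * (k₄ W * cf.t₀ * ‖i.x - j.x‖ + ‖i.β - j.β‖) ^ 2 := by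
  set dx := ‖i.x - j.x‖
  set db := ‖i.β - j.β‖
  have hvi := i.continuous_val i.sol
  have hvj := j.continuous_val j.sol
  have hci := i.continuous_w
  have hcj := j.continuous_w
  have hct := i.continuous_tm
  have hb1 := continuous_bump cf.α 1
  set Y := avg (fun θ => ‖i.w θ - j.w θ‖ ^ 2) with hY
  have hY2 : Y ≤ avg fun θ => ‖i.val i.sol θ - j.val j.sol θ‖ ^ 2 := by
    have h := avg_sq_rv_proj_le (N := cf.N) (hvi.sub hvj)
    rw [show (i.val i.sol - j.val j.sol) = fun θ => i.val i.sol θ - j.val j.sol θ from rfl,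
      proj_sub hvi hvj, i.proj_sol, j.proj_sol] at h
    refine le_trans (le_of_eq ?_) h
    rw [hY]
    congr 1
    funext θ
    simp only [w]
    rw [show bd (i.sol - j.sol) θ = bd i.sol θ - bd j.sol θ from pol_sub _ _ _,
      ← rvL_apply (bd i.sol θ - bd j.sol θ), map_sub]
    rfl
  have hpt : ∀ θ, ‖i.val i.sol θ - j.val j.sol θ‖ ^ 2 ≤
      (2 / 9 : ℝ) * ‖i.w θ - j.w θ‖ ^ 2 + (6 * (W.L * dx) ^ 2 * ‖i.w θ‖ ^ 2 +
        (6 * (W.C * dx) ^ 2 * i.tm θ ^ 2 + 6 * db ^ 2 * bump cf.α 1 θ)) := by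
    intro θ
    have htm : i.tm θ = j.tm θ := by simp [tm, a, hs, hs']
    have h1 : ‖i.val i.sol θ - j.val j.sol θ‖ ≤ 1 / 3 * ‖i.w θ - j.w θ‖ +
        (W.L * dx * ‖i.w θ‖ + W.C * dx * i.tm θ + db * bump cf.α 1 θ) := by
      rw [val, val, ← htm, add_sub_add_comm]
      refine (norm_add_le _ _).trans ((add_le_add
        (W.norm_field_sub_base i.hx j.hx (i.w θ) (j.w θ) (i.tm_mem' θ)) le_rfl).trans ?_)
      have hbb : ‖i.bb θ - j.bb θ‖ ≤ db * bump cf.α 1 θ := by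
        rw [bb, bb, hs, hs', ← smul_sub, norm_smul, one_mul,
          Real.norm_of_nonneg (bump_nonneg _ _ _), mul_comm]
      have h2 := mul_le_mul_of_nonneg_right (i.lip_le θ) (norm_nonneg (i.w θ - j.w θ))
      linarith
    refine (sq_le_of_le_add₃ (norm_nonneg _) h1).trans ?_
    have h3 := mul_le_mul_of_nonneg_left (bump_sq_le cf.α 1 θ) (sq_nonneg db)
    rw [mul_pow (W.L * dx), mul_pow (W.C * dx), mul_pow db]
    linarith
  have h := hY2.trans (avg_mono (by fun_prop) (by fun_prop) hpt)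
  have hwd : Continuous fun θ => ‖i.w θ - j.w θ‖ ^ 2 := (hci.sub hcj).norm.pow 2
  rw [avg_lin₄ (f₁ := fun θ => ‖i.w θ - j.w θ‖ ^ 2) (f₂ := fun θ => ‖i.w θ‖ ^ 2)
    (f₃ := fun θ => i.tm θ ^ 2) (f₄ := bump cf.α 1) _ _ _ _ hwd (hci.norm.pow 2) (hct.pow 2) hb1,
    ← hY] at h
  have h1 := mul_le_mul_of_nonneg_left i.avg_sq_w_le (sq_nonneg (W.L * dx))
  have h2 := mul_le_mul_of_nonneg_left (i.avg_sq_tm_le hs) (sq_nonneg (W.C * dx))
  have h3 := mul_le_mul_of_nonneg_left (avg_bump_le cf.α_pos (zero_le_one : (0 : ℝ) ≤ 1))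
    (sq_nonneg db)
  have hα := cf.α_pos.le
  have hC := W.C_nonneg
  have hL := W.L_nonneg
  have ht := cf.t₀_pos.le
  have hp : 0 ≤ W.L * (W.C + 1) * cf.t₀ * dx := by positivity
  have hq : 0 ≤ W.C * cf.t₀ * dx := by positivity
  have hr : 0 ≤ db := norm_nonneg _
  have h4 : 4 * (W.L * (W.C + 1) * cf.t₀ * dx) ^ 2 + 4 * (W.C * cf.t₀ * dx) ^ 2 + db ^ 2 ≤
      (k₄ W * cf.t₀ * dx + db) ^ 2 := by
    rw [k₄]
    nlinarith [mul_nonneg hp hq, mul_nonneg hp hr, mul_nonneg hq hr]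
  have h5 := mul_le_mul_of_nonneg_left h4 hα
  have h6 : 0 ≤ cf.α * db ^ 2 := by positivity
  have h7 : 0 ≤ cf.α * (W.L * (W.C + 1) * cf.t₀ * dx) ^ 2 := by positivity
  have h8 : 0 ≤ cf.α * (W.C * cf.t₀ * dx) ^ 2 := by positivity
  linarith

/-- The constant in the Lipschitz bound of the centre. -/
def k₆ (W : Win P) : ℝ := 12 * W.L * (W.C + 1) + 6 * W.C

theorem norm_core_sub_le (j : Inp cf) (hs : i.s = 1) (hs' : j.s = 1)
    (hw : ∀ θ, ‖i.w θ‖ ≤ W.b) (hw' : ∀ θ, ‖j.w θ‖ ≤ W.b) :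
    ‖i.core - j.core‖ ≤ cf.α *
      ((3 * W.L * ((W.C + 1) * cf.t₀) ^ 2 + 2 * W.C * cf.t₀) * ‖i.x - j.x‖ +
        k₆ W * cf.t₀ * (k₄ W * cf.t₀ * ‖i.x - j.x‖ + ‖i.β - j.β‖)) := by
  set dx := ‖i.x - j.x‖
  set M := k₄ W * cf.t₀ * dx + ‖i.β - j.β‖
  have hci := i.continuous_w
  have hcj := j.continuous_w
  have hct := i.continuous_tm
  have hC := W.C_nonneg
  have hL := W.L_nonneg
  have ht := cf.t₀_pos.le
  have hα := cf.α_pos.le
  have hIi : Continuous fun θ =>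
      tay P.h i.x (ins m (i.w θ)) + W.H.e (W.pt i.x (i.w θ)) (i.tm θ) :=
    (i.continuous_tay hw).add i.continuous_e
  have hIj : Continuous fun θ =>
      tay P.h j.x (ins m (j.w θ)) + W.H.e (W.pt j.x (j.w θ)) (j.tm θ) :=
    (j.continuous_tay hw').add j.continuous_e
  rw [core, core, ← avg_sub hIi hIj]
  refine (norm_avg_le _).trans ((avg_mono
    (hIi.sub hIj).norm (by fun_prop)
    (g := fun θ => W.L * dx * ‖i.w θ‖ ^ 2 + W.L * (‖i.w θ‖ * ‖i.w θ - j.w θ‖) +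
      W.L * (‖j.w θ‖ * ‖i.w θ - j.w θ‖) + W.C * dx * i.tm θ +
      W.C * (i.tm θ * ‖i.w θ - j.w θ‖)) fun θ => ?_).trans ?_)
  · have hb : ∀ (l : Inp cf), (∀ θ, ‖l.w θ‖ ≤ W.b) → ‖ins m (l.w θ)‖ ≤ W.R := fun l hl => by
      rw [norm_ins, ← clp_eq (hl θ)]; exact W.norm_clp _
    have htm : i.tm θ = j.tm θ := by simp [tm, a, hs, hs']
    have e1 := W.tay_x i.x i.hx j.x j.hx _ (hb i hw)
    have e2 := W.tay_w j.x j.hx _ _ (hb i hw) (hb j hw')
    rw [norm_ins] at e1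
    rw [← ins_sub, norm_ins, norm_ins, norm_ins] at e2
    have e3 := (W.lip_x _ (W.sub (W.pt_mem i.hx (i.w θ))) _ (W.sub (W.pt_mem j.hx (j.w θ)))
      (i.tm θ) (i.tm_mem' θ)).trans (mul_le_mul_of_nonneg_left
      (W.norm_pt_sub i.x j.x (i.w θ) (j.w θ)) (mul_nonneg hC (i.tm_mem' θ).1))
    show ‖tay P.h i.x (ins m (i.w θ)) + W.H.e (W.pt i.x (i.w θ)) (i.tm θ) -
      (tay P.h j.x (ins m (j.w θ)) + W.H.e (W.pt j.x (j.w θ)) (j.tm θ))‖ ≤ _
    rw [add_sub_add_comm, ← htm]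
    refine (norm_add_le _ _).trans ?_
    have e4 := norm_sub_le_norm_sub_add_norm_sub (tay P.h i.x (ins m (i.w θ)))
      (tay P.h j.x (ins m (i.w θ))) (tay P.h j.x (ins m (j.w θ)))
    linarith
  have hdn : Continuous fun θ => ‖i.w θ - j.w θ‖ := (hci.sub hcj).norm
  rw [avg_lin₅ (f₁ := fun θ => ‖i.w θ‖ ^ 2) (f₂ := fun θ => ‖i.w θ‖ * ‖i.w θ - j.w θ‖)
    (f₃ := fun θ => ‖j.w θ‖ * ‖i.w θ - j.w θ‖) (f₄ := i.tm)
    (f₅ := fun θ => i.tm θ * ‖i.w θ - j.w θ‖) _ _ _ _ _ (hci.norm.pow 2) (hci.norm.mul hdn)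
    (hcj.norm.mul hdn) hct (hct.mul hdn)]
  have hM : 0 ≤ M := add_nonneg (by rw [k₄]; positivity) (norm_nonneg _)
  set ra := Real.sqrt cf.α with hra
  have hra2 : ra ^ 2 = cf.α := Real.sq_sqrt hα
  have hD : avg (fun θ => ‖i.w θ - j.w θ‖ ^ 2) ≤ (3 * ra * M) ^ 2 := by
    rw [mul_pow, mul_pow, hra2]
    linarith [i.avg_sq_w_sub_le j hs hs']
  have hwb : ∀ l : Inp cf, avg (fun θ => ‖l.w θ‖ ^ 2) ≤ (2 * ((W.C + 1) * cf.t₀) * ra) ^ 2 := by
    intro l
    rw [mul_pow, hra2, mul_pow]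
    have := l.avg_sq_w_le
    have : 0 ≤ ((W.C + 1) * cf.t₀) ^ 2 * cf.α := by positivity
    linarith
  have htb : avg (fun θ => i.tm θ ^ 2) ≤ (2 * cf.t₀ * ra) ^ 2 := by
    rw [mul_pow, hra2, mul_pow]
    have := i.avg_sq_tm_le hs
    have : 0 ≤ cf.α * cf.t₀ ^ 2 := by positivity
    linarith
  have ha1 : 0 ≤ 2 * ((W.C + 1) * cf.t₀) * ra :=
    mul_nonneg (mul_nonneg zero_le_two (mul_nonneg (by linarith) ht)) (Real.sqrt_nonneg _)
  have ha2 : 0 ≤ 2 * cf.t₀ * ra := mul_nonneg (mul_nonneg zero_le_two ht) (Real.sqrt_nonneg _)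
  have hb0 : 0 ≤ 3 * ra * M := mul_nonneg (mul_nonneg (by norm_num) (Real.sqrt_nonneg _)) hM
  have p1 := avg_mul_le (f := fun θ => ‖i.w θ‖) (g := fun θ => ‖i.w θ - j.w θ‖) hci.norm hdn
    ha1 hb0 (hwb i) hD
  have p2 := avg_mul_le (f := fun θ => ‖j.w θ‖) (g := fun θ => ‖i.w θ - j.w θ‖) hcj.norm hdn
    ha1 hb0 (hwb j) hD
  have p3 := avg_mul_le (f := i.tm) (g := fun θ => ‖i.w θ - j.w θ‖) hct hdn ha2 hb0 htb hD
  rw [show 2 * ((W.C + 1) * cf.t₀) * ra * (3 * ra * M) = 6 * ((W.C + 1) * cf.t₀) * ra ^ 2 * M by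
    ring, hra2] at p1 p2
  rw [show 2 * cf.t₀ * ra * (3 * ra * M) = 6 * cf.t₀ * ra ^ 2 * M by ring, hra2] at p3
  have q1 := mul_le_mul_of_nonneg_left i.avg_sq_w_le (by positivity : 0 ≤ W.L * dx)
  have q2 := mul_le_mul_of_nonneg_left p1 hL
  have q3 := mul_le_mul_of_nonneg_left p2 hL
  have q4 := mul_le_mul_of_nonneg_left (i.avg_tm_le hs) (by positivity : 0 ≤ W.C * dx)
  have q5 := mul_le_mul_of_nonneg_left p3 hC
  simp only [k₆]
  linarith

end Inp

end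

end Vale.Agent.P274.Full
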