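import Vale.Agent.P274.Full.Defs
import Mathlib.Analysis.Calculus.MeanValue
import Mathlib.Analysis.InnerProductSpace.Calculus
import Mathlib.MeasureTheory.Integral.IntervalIntegral.FundThmCalculus
import Mathlib.MeasureTheory.Integral.IntervalIntegral.Periodic
import Mathlib.Analysis.SpecialFunctions.Trigonometric.Bounds
import Mathlib.Algebra.QuadraticDiscriminant
import Mathlib.Analysis.Real.Pi.Bounds
import Mathlib.Analysis.SpecialFunctions.Integrals.Basic

/-!
Means over the circle, trigonometric discs and their norms.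
-/

open Filter Metric Set Function Topology MeasureTheory
open scoped InnerProductSpace ComplexConjugate

namespace Vale.Agent.P274.Full

noncomputable section

/-! ### Real and imaginary parts -/

variable {k N : ℕ}

/-- The real part as a linear map. -/
def rvL (k : ℕ) : Cn k →L[ℝ] Rn k :=
  LinearMap.toContinuousLinearMap
    { toFun := rv
      map_add' := fun a b => by ext i; simp [rv]
      map_smul' := fun r a => by ext i; simp [rv] }

/-- The imaginary part as a linear map. -/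
def ivL (k : ℕ) : Cn k →L[ℝ] Rn k :=
  LinearMap.toContinuousLinearMap
    { toFun := iv
      map_add' := fun a b => by ext i; simp [iv]
      map_smul' := fun r a => by ext i; simp [iv] }

/-- A real vector as a complex one. -/
def ofR (k : ℕ) : Rn k →L[ℝ] Cn k :=
  LinearMap.toContinuousLinearMap
    { toFun := fun v => mkC v 0
      map_add' := fun a b => by ext i; simp [mkC, Complex.ext_iff]
      map_smul' := fun r a => by ext i; simp [mkC, Complex.ext_iff] }

theorem rvL_apply (w : Cn k) : rvL k w = rv w := rfl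

theorem ivL_apply (w : Cn k) : ivL k w = iv w := rfl

theorem ofR_apply (v : Rn k) (i : Fin k) : ofR k v i = (v i : ℂ) := by
  simp [ofR, mkC, Complex.ext_iff]

theorem iv_eq_rv (w : Cn k) : iv w = rv ((-Complex.I) • w) := by
  ext i; simp [iv, rv]

theorem rv_mkC (u v : Rn k) : rv (mkC u v) = u := by ext i; simp [rv, mkC]

theorem iv_mkC (u v : Rn k) : iv (mkC u v) = v := by ext i; simp [iv, mkC]

theorem mkC_rv_iv (w : Cn k) : mkC (rv w) (iv w) = w := by ext i; simp [mkC, rv, iv]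

theorem mkC_sub (u v u' v' : Rn k) : mkC u v - mkC u' v' = mkC (u - u') (v - v') := by
  ext i; simp [mkC, Complex.ext_iff]

theorem mkC_add (u v u' v' : Rn k) : mkC u v + mkC u' v' = mkC (u + u') (v + v') := by
  ext i; simp [mkC, Complex.ext_iff]

theorem norm_mkC_sq (u v : Rn k) : ‖mkC u v‖ ^ 2 = ‖u‖ ^ 2 + ‖v‖ ^ 2 := by
  simp only [PiLp.norm_sq_eq_of_L2, ← Finset.sum_add_distrib]
  exact Finset.sum_congr rfl fun i _ => by
    rw [Complex.sq_norm, Complex.normSq_apply, Real.norm_eq_abs, Real.norm_eq_abs, sq_abs, sq_abs]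
    simp [mkC]; ring

theorem norm_mkC_zero_left (v : Rn k) : ‖mkC 0 v‖ = ‖v‖ := by
  have h := norm_mkC_sq 0 v
  rw [norm_zero] at h
  exact (pow_left_inj₀ (norm_nonneg _) (norm_nonneg _) two_ne_zero).1 (by linarith)

theorem norm_mkC_le (u v : Rn k) : ‖mkC u v‖ ≤ ‖u‖ + ‖v‖ := by
  refine le_of_pow_le_pow_left₀ two_ne_zero (by positivity) ?_
  rw [norm_mkC_sq]
  nlinarith [norm_nonneg u, norm_nonneg v]

theorem norm_rv_le (w : Cn k) : ‖rv w‖ ≤ ‖w‖ := by
  have h := norm_mkC_sq (rv w) (iv w)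
  rw [mkC_rv_iv] at h
  exact le_of_pow_le_pow_left₀ two_ne_zero (norm_nonneg _) (by nlinarith [norm_nonneg (iv w)])

theorem norm_iv_le (w : Cn k) : ‖iv w‖ ≤ ‖w‖ := by
  have h := norm_mkC_sq (rv w) (iv w)
  rw [mkC_rv_iv] at h
  exact le_of_pow_le_pow_left₀ two_ne_zero (norm_nonneg _) (by nlinarith [norm_nonneg (rv w)])

theorem continuous_mkC : Continuous fun p : Rn k × Rn k => mkC p.1 p.2 := by
  have e : (fun p : Rn k × Rn k => mkC p.1 p.2) =
      fun p => ofR k p.1 + Complex.I • ofR k p.2 := by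
    funext p; ext i; simp [mkC, ofR_apply, Complex.ext_iff]
  rw [e]
  fun_prop

theorem inner_rv (v : Rn k) (w : Cn k) : ⟪v, rv w⟫_ℝ = (⟪ofR k v, w⟫_ℂ).re := by
  simp only [PiLp.inner_apply, Complex.re_sum]
  exact Finset.sum_congr rfl fun i _ => by simp [ofR_apply, rv, mul_comm]

theorem inner_iv (v : Rn k) (w : Cn k) :
    ⟪v, iv w⟫_ℝ = (⟪ofR k v, (-Complex.I) • w⟫_ℂ).re := by
  rw [iv_eq_rv, inner_rv]

/-! ### Means -/

/-- The mean over a period. -/
def avg {E : Type*} [NormedAddCommGroup E] [NormedSpace ℝ E] (f : ℝ → E) : E :=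
  (2 * Real.pi)⁻¹ • ∫ θ in (0 : ℝ)..(2 * Real.pi), f θ

section avg

variable {E F : Type*} [NormedAddCommGroup E] [NormedSpace ℝ E] [NormedAddCommGroup F]
  [NormedSpace ℝ F] {f g : ℝ → E}

theorem avg_add (hf : Continuous f) (hg : Continuous g) :
    avg (fun θ => f θ + g θ) = avg f + avg g := by
  simp only [avg, intervalIntegral.integral_add (hf.intervalIntegrable _ _)
    (hg.intervalIntegrable _ _), smul_add]

theorem avg_sub (hf : Continuous f) (hg : Continuous g) :
    avg (fun θ => f θ - g θ) = avg f - avg g := by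
  simp only [avg, intervalIntegral.integral_sub (hf.intervalIntegrable _ _)
    (hg.intervalIntegrable _ _), smul_sub]

theorem avg_smul {𝕜 : Type*} [RCLike 𝕜] [NormedSpace 𝕜 E] [SMulCommClass ℝ 𝕜 E] (c : 𝕜)
    (f : ℝ → E) : avg (fun θ => c • f θ) = c • avg f := by
  simp only [avg, intervalIntegral.integral_smul, smul_comm c]

theorem avg_sum {ι : Type*} (s : Finset ι) {f : ι → ℝ → E} (hf : ∀ i ∈ s, Continuous (f i)) :
    avg (fun θ => ∑ i ∈ s, f i θ) = ∑ i ∈ s, avg (f i) := by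
  simp only [avg, intervalIntegral.integral_finsetSum fun i hi => (hf i hi).intervalIntegrable _ _,
    Finset.smul_sum]

theorem avg_const [CompleteSpace E] (c : E) : avg (fun _ => c) = c := by
  rw [avg, intervalIntegral.integral_const, smul_smul, sub_zero,
    inv_mul_cancel₀ (by positivity), one_smul]

theorem avg_clm [CompleteSpace E] [CompleteSpace F] (L : E →L[ℝ] F) (hf : Continuous f) :
    avg (fun θ => L (f θ)) = L (avg f) := by
  simp only [avg, map_smul]
  rw [L.intervalIntegral_comp_comm (hf.intervalIntegrable _ _)]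

theorem norm_avg_le (f : ℝ → E) : ‖avg f‖ ≤ avg fun θ => ‖f θ‖ := by
  have hp : 0 < 2 * Real.pi := by positivity
  simp only [avg, norm_smul, Real.norm_of_nonneg (inv_nonneg.2 hp.le), smul_eq_mul]
  exact mul_le_mul_of_nonneg_left (intervalIntegral.norm_integral_le_integral_norm hp.le)
    (inv_nonneg.2 hp.le)

theorem avg_translate (hp : Periodic f (2 * Real.pi)) (τ : ℝ) :
    avg (fun θ => f (θ + τ)) = avg f := by
  simp only [avg, intervalIntegral.integral_comp_add_right]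
  rw [zero_add, add_comm (2 * Real.pi) τ, hp.intervalIntegral_add_eq τ 0, zero_add]

theorem avg_mono {f g : ℝ → ℝ} (hf : Continuous f) (hg : Continuous g) (h : ∀ θ, f θ ≤ g θ) :
    avg f ≤ avg g := by
  simp only [avg, smul_eq_mul]
  exact mul_le_mul_of_nonneg_left (intervalIntegral.integral_mono_on (by positivity)
    (hf.intervalIntegrable _ _) (hg.intervalIntegrable _ _) fun θ _ => h θ) (by positivity)

theorem avg_nonneg {f : ℝ → ℝ} (h : ∀ θ, 0 ≤ f θ) : 0 ≤ avg f := by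
  simp only [avg, smul_eq_mul]
  exact mul_nonneg (by positivity)
    (intervalIntegral.integral_nonneg (by positivity) fun θ _ => h θ)

theorem avg_mul_const (f : ℝ → ℝ) (c : ℝ) : avg (fun θ => c * f θ) = c * avg f :=
  avg_smul c f

/-- Cauchy–Schwarz for means. -/
theorem avg_mul_le {f g : ℝ → ℝ} {a b : ℝ} (hf : Continuous f) (hg : Continuous g) (ha : 0 ≤ a)
    (hb : 0 ≤ b) (h1 : avg (fun θ => f θ ^ 2) ≤ a ^ 2) (h2 : avg (fun θ => g θ ^ 2) ≤ b ^ 2) :
    avg (fun θ => f θ * g θ) ≤ a * b := by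
  have key : ∀ s : ℝ, 0 ≤ avg (fun θ => f θ ^ 2) * (s * s) +
      (-2 * avg fun θ => f θ * g θ) * s + avg fun θ => g θ ^ 2 := by
    intro s
    have h := avg_nonneg (f := fun θ => (s * f θ - g θ) ^ 2) fun θ => sq_nonneg _
    rw [show (fun θ => (s * f θ - g θ) ^ 2) =
      fun θ => s * s * f θ ^ 2 + -2 * s * (f θ * g θ) + g θ ^ 2 from funext fun θ => by ring,
      avg_add (by fun_prop) (by fun_prop), avg_add (by fun_prop) (by fun_prop), avg_mul_const,
      avg_mul_const] at h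
    linarith
  have hd := discrim_le_zero key
  rw [discrim] at hd
  have hprod : avg (fun θ => f θ * g θ) ^ 2 ≤ (a * b) ^ 2 := by
    rw [mul_pow]
    have := mul_le_mul h1 h2 (avg_nonneg fun θ => sq_nonneg _) (sq_nonneg a)
    nlinarith
  exact (abs_le.1 (abs_le_of_sq_le_sq hprod (mul_nonneg ha hb))).2

end avg

/-! ### Discs -/

/-- The point of the unit circle at an angle. -/
def cir (θ : ℝ) : ℂ := Complex.exp ((θ : ℂ) * Complex.I)

theorem continuous_cir : Continuous cir := by unfold cir; fun_prop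

theorem norm_cir (θ : ℝ) : ‖cir θ‖ = 1 := Complex.norm_exp_ofReal_mul_I θ

theorem cir_add (a b : ℝ) : cir (a + b) = cir a * cir b := by
  rw [cir, cir, cir, ← Complex.exp_add, Complex.ofReal_add, add_mul]

theorem periodic_cir : Periodic cir (2 * Real.pi) := fun θ => by
  rw [cir_add]
  simp [cir, Complex.exp_two_pi_mul_I]

theorem conj_cir (θ : ℝ) : conj (cir θ) = cir (-θ) := by
  simp [cir, ← Complex.exp_conj, neg_mul]

theorem exists_cir {z : ℂ} (hz : ‖z‖ = 1) : ∃ θ, cir θ = z :=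
  ⟨z.arg, by rw [cir]; exact (by simpa [hz] using Complex.norm_mul_exp_arg_mul_I z)⟩

theorem cir_mul_conj (θ : ℝ) : cir θ * conj (cir θ) = 1 := by
  rw [conj_cir, ← cir_add, add_neg_cancel, cir]; simp

theorem avg_cir_pow {n : ℤ} (hn : n ≠ 0) : avg (fun θ => cir ((n : ℝ) * θ)) = 0 := by
  simp only [avg, cir]
  rw [show (fun θ : ℝ => Complex.exp (((n : ℝ) * θ : ℝ) * Complex.I)) =
    fun θ : ℝ => Complex.exp (((n : ℂ) * Complex.I) * (θ : ℂ)) from funext fun θ => by
      push_cast; ring_nf]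
  rw [integral_exp_mul_complex (by simp [hn])]
  rw [show ((n : ℂ) * Complex.I) * ((2 * Real.pi : ℝ) : ℂ) = (n : ℂ) * (2 * Real.pi * Complex.I) by
    push_cast; ring]
  simp [Complex.exp_int_mul_two_pi_mul_I]

/-- Coefficients of trigonometric discs of degree `N`. -/
abbrev Cf (N k : ℕ) : Type := PiLp 2 (fun _ : Fin N => Cn k)

/-- The disc `∑ ζ^(j+1) c_j`. -/
def pol (c : Cf N k) (ζ : ℂ) : Cn k := ∑ j : Fin N, ζ ^ ((j : ℕ) + 1) • c j

/-- The disc on the circle. -/
def bd (c : Cf N k) (θ : ℝ) : Cn k := pol c (cir θ)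

theorem continuous_pol (c : Cf N k) : Continuous (pol c) := by unfold pol; fun_prop

theorem continuous_bd (c : Cf N k) : Continuous (bd c) := (continuous_pol c).comp continuous_cir

theorem periodic_bd (c : Cf N k) : Periodic (bd c) (2 * Real.pi) := fun θ => by
  simp only [bd, periodic_cir θ]

theorem pol_sub (c d : Cf N k) (ζ : ℂ) : pol (c - d) ζ = pol c ζ - pol d ζ := by
  simp [pol, smul_sub, Finset.sum_sub_distrib]

theorem pol_zero (ζ : ℂ) : pol (0 : Cf N k) ζ = 0 := by simp [pol]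

theorem norm_pol_le (c : Cf N k) {ζ : ℂ} (hζ : ‖ζ‖ ≤ 1) : ‖pol c ζ‖ ≤ ∑ j, ‖c j‖ := by
  refine (norm_sum_le _ _).trans (Finset.sum_le_sum fun j _ => ?_)
  rw [norm_smul, norm_pow]
  exact mul_le_of_le_one_left (norm_nonneg _) (pow_le_one₀ (norm_nonneg _) hζ)

theorem avg_bd (c : Cf N k) : avg (bd c) = 0 := by
  show avg (fun θ => pol c (cir θ)) = 0
  simp only [pol]
  rw [avg_sum _ fun j _ => by have := continuous_cir; fun_prop]
  refine Finset.sum_eq_zero fun j _ => ?_
  rw [show (fun θ => cir θ ^ ((j : ℕ) + 1) • c j) =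
    fun θ => (ContinuousLinearMap.toSpanSingleton ℂ (c j)).restrictScalars ℝ
      (cir ((((j : ℕ) + 1 : ℕ) : ℤ) * θ)) from funext fun θ => by
      simp [cir, ← Complex.exp_nat_mul]; ring_nf,
    avg_clm _ (by have := continuous_cir; fun_prop),
    avg_cir_pow (by omega), map_zero]

theorem avg_cir_pow_mul (i j : ℕ) :
    avg (fun θ => cir θ ^ i * conj (cir θ) ^ j) = if i = j then 1 else 0 := by
  rw [show (fun θ => cir θ ^ i * conj (cir θ) ^ j) = fun θ => cir ((((i : ℤ) - j : ℤ) : ℝ) * θ) from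
    funext fun θ => by
      rw [conj_cir, cir, cir, cir, ← Complex.exp_nat_mul, ← Complex.exp_nat_mul, ← Complex.exp_add]
      push_cast; ring_nf]
  split_ifs with h
  · subst h
    simp [cir, avg_const]
  · exact avg_cir_pow (by omega)

theorem avg_norm_sq_bd (c : Cf N k) : avg (fun θ => ‖bd c θ‖ ^ 2) = ‖c‖ ^ 2 := by
  have hc := continuous_cir
  have e : (fun θ => ‖bd c θ‖ ^ 2) = fun θ => Complex.reCLM
      (∑ i : Fin N, ∑ j : Fin N, ⟪c j, c i⟫_ℂ *
        (cir θ ^ ((i : ℕ) + 1) * conj (cir θ) ^ ((j : ℕ) + 1))) := by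
    funext θ
    rw [← inner_self_eq_norm_sq (𝕜 := ℂ) (bd c θ), bd, pol, sum_inner, Finset.sum_comm]
    simp only [inner_sum, inner_smul_left, inner_smul_right, map_pow]
    exact congrArg Complex.re (Finset.sum_congr rfl fun i _ => Finset.sum_congr rfl fun j _ => by ring)
  rw [e, avg_clm _ (by fun_prop), avg_sum _ fun i _ => by fun_prop]
  rw [Finset.sum_congr rfl fun (i : Fin N) _ => avg_sum _ fun (j : Fin N) _ => by fun_prop]
  simp only [show ∀ (i j : Fin N), avg (fun θ => ⟪c j, c i⟫_ℂ *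
      (cir θ ^ ((i : ℕ) + 1) * conj (cir θ) ^ ((j : ℕ) + 1))) =
      ⟪c j, c i⟫_ℂ * if i = j then 1 else 0 from fun i j => by
    rw [show (fun θ => ⟪c j, c i⟫_ℂ * (cir θ ^ ((i : ℕ) + 1) * conj (cir θ) ^ ((j : ℕ) + 1))) =
      fun θ => ⟪c j, c i⟫_ℂ • (cir θ ^ ((i : ℕ) + 1) * conj (cir θ) ^ ((j : ℕ) + 1)) from rfl,
      avg_smul, avg_cir_pow_mul, smul_eq_mul]
    simp [Fin.val_inj]]
  simp [PiLp.norm_sq_eq_of_L2, inner_self_eq_norm_sq_to_K, ← Complex.ofReal_pow]

theorem avg_sq_bd_apply (c : Cf N k) (l : Fin k) : avg (fun θ => bd c θ l ^ 2) = 0 := by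
  have hc := continuous_cir
  have e : (fun θ => bd c θ l ^ 2) = fun θ => ∑ i : Fin N, ∑ j : Fin N,
      (c i l * c j l) • (cir θ ^ ((i : ℕ) + 1 + ((j : ℕ) + 1)) * conj (cir θ) ^ 0) := by
    funext θ
    simp only [bd, pol, sq]
    simp only [WithLp.ofLp_sum, Finset.sum_apply, PiLp.smul_apply, smul_eq_mul,
      Finset.sum_mul_sum, pow_zero, mul_one]
    exact Finset.sum_congr rfl fun i _ => Finset.sum_congr rfl fun j _ => by rw [pow_add]; ring
  rw [e, avg_sum _ fun i _ => by fun_prop]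
  refine Finset.sum_eq_zero fun i _ => ?_
  rw [avg_sum _ fun j _ => by fun_prop]
  refine Finset.sum_eq_zero fun j _ => ?_
  rw [avg_smul, avg_cir_pow_mul, if_neg (by omega), smul_zero]

/-- The real part of a disc carries half of its norm. -/
theorem avg_norm_sq_rv_bd (c : Cf N k) : avg (fun θ => ‖rv (bd c θ)‖ ^ 2) = ‖c‖ ^ 2 / 2 := by
  have hc := continuous_bd c
  have e : (fun θ => ‖rv (bd c θ)‖ ^ 2) = fun θ => (1 / 2 : ℝ) * ‖bd c θ‖ ^ 2 +
      (1 / 2 : ℝ) * Complex.reCLM (∑ l, bd c θ l ^ 2) := by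
    funext θ
    simp only [PiLp.norm_sq_eq_of_L2, Complex.reCLM_apply, Complex.re_sum, Finset.mul_sum,
      ← Finset.sum_add_distrib]
    exact Finset.sum_congr rfl fun l _ => by
      rw [Real.norm_eq_abs, sq_abs, Complex.sq_norm, Complex.normSq_apply, sq (bd c θ l),
        Complex.mul_re]
      simp only [rv]
      ring
  rw [e, avg_add (by fun_prop) (by fun_prop), avg_mul_const, avg_mul_const, avg_norm_sq_bd,
    avg_clm _ (by fun_prop), avg_sum _ fun l _ => by fun_prop]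
  simp only [avg_sq_bd_apply, Finset.sum_const_zero, map_zero, mul_zero, add_zero]
  ring

/-- The imaginary part of a disc carries half of its norm. -/
theorem avg_norm_sq_iv_bd (c : Cf N k) : avg (fun θ => ‖iv (bd c θ)‖ ^ 2) = ‖c‖ ^ 2 / 2 := by
  have hc := continuous_bd c
  have hr : Continuous fun θ => rv (bd c θ) := (rvL k).continuous.comp hc
  have e : (fun θ => ‖iv (bd c θ)‖ ^ 2) = fun θ => ‖bd c θ‖ ^ 2 - ‖rv (bd c θ)‖ ^ 2 :=
    funext fun θ => by
      have h := norm_mkC_sq (rv (bd c θ)) (iv (bd c θ))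
      rw [mkC_rv_iv] at h
      linarith
  rw [e, avg_sub (by fun_prop) (by fun_prop), avg_norm_sq_bd, avg_norm_sq_rv_bd]
  ring

/-! ### The disc of a real function -/

/-- The coefficients `2i v̂(n)`, `1 ≤ n ≤ N`. -/
def proj (N : ℕ) (v : ℝ → Rn k) : Cf N k :=
  WithLp.toLp 2 fun j => (2 * Complex.I) •
    avg fun θ => conj (cir θ) ^ ((j : ℕ) + 1) • ofR k (v θ)

theorem proj_apply (v : ℝ → Rn k) (j : Fin N) : proj N v j = (2 * Complex.I) •
    avg fun θ => conj (cir θ) ^ ((j : ℕ) + 1) • ofR k (v θ) := rfl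

theorem continuous_kernel {v : ℝ → Rn k} (hv : Continuous v) (n : ℕ) :
    Continuous fun θ => conj (cir θ) ^ n • ofR k (v θ) := by
  have := continuous_cir
  fun_prop

theorem proj_sub {v v' : ℝ → Rn k} (hv : Continuous v) (hv' : Continuous v') :
    proj N (fun θ => v θ - v' θ) = proj N v - proj N v' := by
  refine PiLp.ext fun j => ?_
  rw [PiLp.sub_apply, proj_apply, proj_apply, proj_apply, ← smul_sub,
    ← avg_sub (continuous_kernel hv _) (continuous_kernel hv' _)]
  simp only [map_sub, smul_sub]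

theorem proj_const (a : Rn k) : proj N (fun _ => a) = 0 := by
  refine PiLp.ext fun j => ?_
  have hc := continuous_cir
  rw [proj_apply, show (fun θ => conj (cir θ) ^ ((j : ℕ) + 1) • ofR k a) = fun θ =>
    (ContinuousLinearMap.toSpanSingleton ℂ (ofR k a)).restrictScalars ℝ
      (cir θ ^ 0 * conj (cir θ) ^ ((j : ℕ) + 1)) from funext fun θ => by simp,
    avg_clm _ (by fun_prop), avg_cir_pow_mul, if_neg (by omega), map_zero, smul_zero]
  rfl

theorem avg_inner_proj {v : ℝ → Rn k} (hv : Continuous v) :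
    avg (fun θ => ⟪v θ, iv (bd (proj N v) θ)⟫_ℝ) = ‖proj N v‖ ^ 2 / 2 := by
  set c := proj N v
  have hc := continuous_cir
  have e : (fun θ => ⟪v θ, iv (bd c θ)⟫_ℝ) = fun θ => ∑ j : Fin N, Complex.reCLM
      ((-Complex.I) • ((innerSL ℂ (c j)) (conj (cir θ) ^ ((j : ℕ) + 1) • ofR k (v θ)) |> conj)) := by
    funext θ
    rw [inner_iv, bd, pol, Finset.smul_sum, inner_sum, Complex.re_sum]
    refine Finset.sum_congr rfl fun j _ => ?_
    simp only [Complex.reCLM_apply, innerSL_apply_apply,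
      inner_smul_right, smul_eq_mul]
    rw [map_mul, map_pow, Complex.conj_conj, inner_conj_symm]
  rw [e, avg_sum _ fun j _ => by fun_prop]
  simp only [show ∀ j : Fin N, avg (fun θ => Complex.reCLM ((-Complex.I) •
      ((innerSL ℂ (c j)) (conj (cir θ) ^ ((j : ℕ) + 1) • ofR k (v θ)) |> conj))) =
      ‖c j‖ ^ 2 / 2 from fun j => by
    rw [avg_clm _ (by fun_prop), avg_smul]
    rw [show (fun θ => conj ((innerSL ℂ (c j)) (conj (cir θ) ^ ((j : ℕ) + 1) • ofR k (v θ)))) =
      fun θ => (Complex.conjCLE.toContinuousLinearMap.comp ((innerSL ℂ (c j)).restrictScalars ℝ))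
        (conj (cir θ) ^ ((j : ℕ) + 1) • ofR k (v θ)) from rfl,
      avg_clm _ (continuous_kernel hv _)]
    have hA : avg (fun θ => conj (cir θ) ^ ((j : ℕ) + 1) • ofR k (v θ)) =
        (2 * Complex.I)⁻¹ • c j := by
      rw [show c j = (2 * Complex.I) • avg (fun θ => conj (cir θ) ^ ((j : ℕ) + 1) • ofR k (v θ))
        from rfl, inv_smul_smul₀ (by simp)]
    rw [hA]
    simp [inner_smul_right, inner_self_eq_norm_sq_to_K, ← Complex.ofReal_pow]
    ring]
  rw [PiLp.norm_sq_eq_of_L2, Finset.sum_div]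

/-- Bessel's inequality. -/
theorem norm_sq_proj_le {v : ℝ → Rn k} (hv : Continuous v) :
    ‖proj N v‖ ^ 2 ≤ 2 * avg fun θ => ‖v θ‖ ^ 2 := by
  set c := proj N v
  have hc := continuous_bd c
  have hi : Continuous fun θ => iv (bd c θ) := (ivL k).continuous.comp hc
  have h : avg (fun θ => ⟪v θ, iv (bd c θ)⟫_ℝ) ≤
      avg fun θ => (1 / 2 : ℝ) * ‖v θ‖ ^ 2 + (1 / 2 : ℝ) * ‖iv (bd c θ)‖ ^ 2 := by
    refine avg_mono (by fun_prop) (by fun_prop) fun θ => ?_
    nlinarith [real_inner_le_norm (v θ) (iv (bd c θ)), sq_nonneg (‖v θ‖ - ‖iv (bd c θ)‖)]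
  rw [avg_inner_proj hv, avg_add (by fun_prop) (by fun_prop), avg_mul_const, avg_mul_const,
    avg_norm_sq_iv_bd] at h
  linarith

theorem avg_sq_rv_proj_le {v : ℝ → Rn k} (hv : Continuous v) :
    avg (fun θ => ‖rv (bd (proj N v) θ)‖ ^ 2) ≤ avg fun θ => ‖v θ‖ ^ 2 := by
  rw [avg_norm_sq_rv_bd]
  linarith [norm_sq_proj_le (N := N) hv]

/-- The rotation of a disc. -/
def rot (τ : ℝ) (c : Cf N k) : Cf N k := WithLp.toLp 2 fun j => cir τ ^ ((j : ℕ) + 1) • c j

theorem bd_rot (τ : ℝ) (c : Cf N k) (θ : ℝ) : bd (rot τ c) θ = bd c (θ + τ) := by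
  simp only [bd, pol, rot, cir_add, mul_pow, smul_smul]

theorem proj_translate {v : ℝ → Rn k} (hp : Periodic v (2 * Real.pi))
    (τ : ℝ) : proj N (fun θ => v (θ + τ)) = rot τ (proj N v) := by
  refine PiLp.ext fun j => ?_
  have e : (fun θ => conj (cir θ) ^ ((j : ℕ) + 1) • ofR k (v (θ + τ))) = fun θ =>
      cir τ ^ ((j : ℕ) + 1) •
        (fun φ => conj (cir φ) ^ ((j : ℕ) + 1) • ofR k (v φ)) (θ + τ) := by
    funext θ
    rw [smul_smul, ← mul_pow, cir_add, map_mul, mul_left_comm, cir_mul_conj, mul_one]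
  have hq : Periodic (fun φ => conj (cir φ) ^ ((j : ℕ) + 1) • ofR k (v φ)) (2 * Real.pi) :=
    fun φ => by simp only [periodic_cir φ, hp φ]
  rw [proj_apply, e, avg_smul, avg_translate hq]
  simp only [rot, proj_apply, smul_comm (2 * Complex.I)]

theorem two_div_pi_mul_le {x : ℝ} (h0 : 0 ≤ x) (h1 : x ≤ Real.pi) :
    2 / Real.pi * x ≤ ‖cir x - 1‖ := by
  have hs := Real.mul_le_sin (x := x / 2) (by linarith) (by linarith)
  have h : ‖cir x - 1‖ ^ 2 = (2 * Real.sin (x / 2)) ^ 2 := by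
    rw [Complex.sq_norm, Complex.normSq_apply, cir]
    simp only [Complex.sub_re, Complex.sub_im, Complex.exp_ofReal_mul_I_re,
      Complex.exp_ofReal_mul_I_im, Complex.one_re, Complex.one_im, sub_zero]
    have h2 : Real.cos x = 1 - 2 * Real.sin (x / 2) ^ 2 := by
      have := Real.cos_two_mul' (x / 2)
      rw [show 2 * (x / 2) = x by ring] at this
      linarith [Real.sin_sq_add_cos_sq (x / 2)]
    nlinarith [Real.sin_sq_add_cos_sq x]
  refine le_of_pow_le_pow_left₀ two_ne_zero (norm_nonneg _) ?_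
  rw [h]
  exact pow_le_pow_left₀ (by positivity) (by linarith) 2

/-- Decay of coefficients from a modulus of continuity in the mean. -/
theorem sum_sq_mul_proj_le {v : ℝ → Rn k} {K : ℝ} (hv : Continuous v)
    (hp : Periodic v (2 * Real.pi))
    (hK : ∀ τ, avg (fun θ => ‖v (θ + τ) - v θ‖ ^ 2) ≤ K * τ ^ 2) :
    ∑ j : Fin N, ((j : ℝ) + 1) ^ 2 * ‖proj N v j‖ ^ 2 ≤ 5 * K := by
  have hK0 : 0 ≤ K := by
    have := (avg_nonneg fun θ => sq_nonneg ‖v (θ + 1) - v θ‖).trans (hK 1)
    linarith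
  rcases Nat.eq_zero_or_pos N with rfl | hN
  · simp; linarith
  set τ : ℝ := Real.pi / N with hτ
  have hN' : (0 : ℝ) < N := by exact_mod_cast hN
  have hτ0 : 0 < τ := by positivity
  have hvτ : Continuous fun θ => v (θ + τ) := hv.comp (continuous_id.add continuous_const)
  have h := (norm_sq_proj_le (N := N) (hvτ.sub hv)).trans
    (mul_le_mul_of_nonneg_left (hK τ) zero_le_two)
  rw [show ((fun θ => v (θ + τ)) - v) = fun θ => v (θ + τ) - v θ from rfl,
    proj_sub hvτ hv, proj_translate hp, PiLp.norm_sq_eq_of_L2] at h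
  have hterm : ∀ j : Fin N, (2 / Real.pi) ^ 2 * τ ^ 2 * (((j : ℝ) + 1) ^ 2 * ‖proj N v j‖ ^ 2) ≤
      ‖(rot τ (proj N v) - proj N v) j‖ ^ 2 := by
    intro j
    have e : (rot τ (proj N v) - proj N v) j =
        (cir (((j : ℝ) + 1) * τ) - 1) • proj N v j := by
      simp only [PiLp.sub_apply, rot, sub_smul, one_smul, cir, ← Complex.exp_nat_mul]
      push_cast; ring_nf
    have hj : ((j : ℝ) + 1) ≤ N := by exact_mod_cast j.2
    have hle : ((j : ℝ) + 1) * τ ≤ Real.pi := by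
      rw [hτ, mul_div_assoc', div_le_iff₀ hN']
      nlinarith [Real.pi_pos]
    rw [e, norm_smul, mul_pow]
    refine le_trans (le_of_eq ?_) (mul_le_mul_of_nonneg_right
      (pow_le_pow_left₀ (by positivity) (two_div_pi_mul_le (by positivity) hle) 2) (sq_nonneg _))
    ring
  have h2 := (Finset.sum_le_sum fun j _ => hterm j).trans h
  rw [← Finset.mul_sum] at h2
  set S := ∑ j : Fin N, ((j : ℝ) + 1) ^ 2 * ‖proj N v j‖ ^ 2
  have hS : 0 ≤ S := Finset.sum_nonneg fun j _ => by positivity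
  have h3 : S * 4 ≤ 2 * K * Real.pi ^ 2 := by
    rw [div_pow] at h2
    have hp2 : 0 < Real.pi ^ 2 := by positivity
    have h4 : 4 * S * τ ^ 2 ≤ 2 * K * Real.pi ^ 2 * τ ^ 2 := by
      calc 4 * S * τ ^ 2 = (2 ^ 2 / Real.pi ^ 2 * τ ^ 2 * S) * Real.pi ^ 2 := by
            field_simp; ring
        _ ≤ (2 * (K * τ ^ 2)) * Real.pi ^ 2 := mul_le_mul_of_nonneg_right h2 hp2.le
        _ = _ := by ring
    have := le_of_mul_le_mul_right h4 (by positivity)
    linarith
  have h5 : Real.pi ^ 2 ≤ 10 := by nlinarith [Real.pi_lt_d2, Real.pi_pos]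
  nlinarith [mul_le_mul_of_nonneg_left h5 hK0]

/-- The interpolation `(∑ a_n)² ≤ 2 (∑ a_n² / α + α ∑ n² a_n²)`. -/
theorem sq_sum_le_interp (a : Fin N → ℝ) {α : ℝ} (hα : 0 < α) :
    (∑ j, a j) ^ 2 ≤
      2 * ((∑ j, a j ^ 2) / α + α * ∑ j : Fin N, ((j : ℝ) + 1) ^ 2 * a j ^ 2) := by
  set w : Fin N → ℝ := fun j => 1 + α ^ 2 * ((j : ℝ) + 1) ^ 2
  have hw : ∀ j, 0 < w j := fun j => by positivity
  have hcs : (∑ j, a j) ^ 2 ≤ (∑ j, (w j)⁻¹) * ∑ j, w j * a j ^ 2 :=
    Finset.sum_sq_le_sum_mul_sum_of_sq_le_mul _ (fun j _ => (inv_pos.2 (hw j)).le)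
      (fun j _ => mul_nonneg (hw j).le (sq_nonneg _))
      fun j _ => le_of_eq (by rw [inv_mul_cancel_left₀ (hw j).ne'])
  have hsum : ∑ j, (w j)⁻¹ ≤ 2 / α := by
    have key : ∀ j : Fin N, (w j)⁻¹ ≤
        2 / α * (1 / (1 + α * (j : ℝ)) - 1 / (1 + α * ((j : ℝ) + 1))) := by
      intro j
      have h1 : 0 < 1 + α * (j : ℝ) := by positivity
      have h2 : 0 < 1 + α * ((j : ℝ) + 1) := by positivity
      rw [show 2 / α * (1 / (1 + α * (j : ℝ)) - 1 / (1 + α * ((j : ℝ) + 1))) =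
        2 / ((1 + α * (j : ℝ)) * (1 + α * ((j : ℝ) + 1))) by field_simp; ring,
        inv_eq_one_div, div_le_div_iff₀ (hw j) (by positivity)]
      simp only [w]
      nlinarith [sq_nonneg (1 - α * ((j : ℝ) + 1))]
    refine (Finset.sum_le_sum fun j _ => key j).trans ?_
    rw [← Finset.mul_sum]
    refine mul_le_of_le_one_right (by positivity) ?_
    rw [Fin.sum_univ_eq_sum_range (fun n : ℕ => 1 / (1 + α * (n : ℝ)) - 1 / (1 + α * ((n : ℝ) + 1)))]
    have h := Finset.sum_range_sub' (fun n : ℕ => 1 / (1 + α * (n : ℝ))) N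
    push_cast at h
    rw [h]
    simp only [mul_zero, add_zero, div_one]
    have : 0 ≤ 1 / (1 + α * (N : ℝ)) := by positivity
    linarith
  have h0 : 0 ≤ ∑ j, w j * a j ^ 2 := Finset.sum_nonneg fun j _ => mul_nonneg (hw j).le (sq_nonneg _)
  refine hcs.trans ((mul_le_mul_of_nonneg_right hsum h0).trans (le_of_eq ?_))
  simp only [w, add_mul, one_mul, Finset.sum_add_distrib, mul_assoc, ← Finset.mul_sum]
  field_simp

end

end Vale.Agent.P274.Full
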