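import Vale.Agent.P274.Full.Inner.Circle
import Mathlib.Analysis.Calculus.ContDiff.RCLike

/-!
Cutoff profiles on the circle and second order estimates for a function of class `C³`.
-/

open Filter Metric Set Function Topology MeasureTheory

namespace Vale.Agent.P274.Full

noncomputable section

/-! ### Profiles -/

/-- The chord from `1` to `e^{iθ}`. -/
def sn (θ : ℝ) : ℝ := 2 * |Real.sin (θ / 2)|

theorem sn_periodic : Periodic sn (2 * Real.pi) := fun θ => by
  rw [sn, sn, show (θ + 2 * Real.pi) / 2 = θ / 2 + Real.pi by ring, Real.sin_add_pi, abs_neg]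

theorem abs_sn_sub_le (a b : ℝ) : |sn a - sn b| ≤ |a - b| := by
  rw [sn, sn, ← mul_sub, abs_mul, abs_two]
  have h2 : LipschitzWith 1 Real.sin := by
    refine lipschitzWith_of_nnnorm_deriv_le Real.differentiable_sin fun x => ?_
    rw [← NNReal.coe_le_coe, coe_nnnorm, Real.deriv_sin, Real.norm_eq_abs, NNReal.coe_one]
    exact Real.abs_cos_le_one x
  have h3 := h2.dist_le_mul (a / 2) (b / 2)
  rw [NNReal.coe_one, one_mul, Real.dist_eq, Real.dist_eq, ← sub_div, abs_div, abs_two] at h3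
  calc 2 * |(|Real.sin (a / 2)| - |Real.sin (b / 2)|)| ≤ 2 * (|a - b| / 2) :=
        mul_le_mul_of_nonneg_left ((abs_abs_sub_abs_le_abs_sub _ _).trans h3) zero_le_two
    _ = |a - b| := by ring

theorem sn_le_abs (θ : ℝ) : sn θ ≤ |θ| := by
  have := abs_sn_sub_le θ 0
  simp only [sn, zero_div, Real.sin_zero, abs_zero, mul_zero, sub_zero] at this
  exact (le_abs_self _).trans this

theorem le_sn {θ : ℝ} (h : |θ| ≤ Real.pi) : 2 / Real.pi * |θ| ≤ sn θ := by
  have hs := Real.mul_le_sin (x := |θ| / 2) (by positivity) (by linarith)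
  have e : |Real.sin (θ / 2)| ≥ Real.sin (|θ| / 2) := by
    rcases le_or_gt 0 θ with h0 | h0
    · rw [abs_of_nonneg h0]; exact le_abs_self _
    · rw [abs_of_neg h0, neg_div, Real.sin_neg]; exact neg_le_abs _
  rw [sn]
  linarith

/-- A plateau of half width `(m - 1) α`. -/
def bump (α m θ : ℝ) : ℝ := max 0 (min 1 (m - sn θ / α))

variable {α m : ℝ}

theorem bump_nonneg (α m θ : ℝ) : 0 ≤ bump α m θ := le_max_left _ _

theorem bump_le_one (α m θ : ℝ) : bump α m θ ≤ 1 := max_le zero_le_one (min_le_left _ _)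

theorem bump_sq_le (α m θ : ℝ) : bump α m θ ^ 2 ≤ bump α m θ := by
  rw [pow_two]
  exact mul_le_of_le_one_left (bump_nonneg _ _ _) (bump_le_one _ _ _)

theorem continuous_bump (α m : ℝ) : Continuous (bump α m) := by
  unfold bump sn; fun_prop

theorem periodic_bump (α m : ℝ) : Periodic (bump α m) (2 * Real.pi) := fun θ => by
  simp only [bump, sn_periodic θ]

theorem bump_eq_one (hα : 0 < α) {θ : ℝ} (h : sn θ ≤ (m - 1) * α) : bump α m θ = 1 := by
  have : sn θ / α ≤ m - 1 := (div_le_iff₀ hα).2 h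
  rw [bump, min_eq_left (by linarith), max_eq_right zero_le_one]

theorem bump_eq_zero (hα : 0 < α) {θ : ℝ} (h : m * α ≤ sn θ) : bump α m θ = 0 := by
  have : m ≤ sn θ / α := (le_div_iff₀ hα).2 h
  rw [bump, max_eq_left ((min_le_right _ _).trans (by linarith))]

theorem bump_plateau (hα : 0 < α) {θ : ℝ} (h : bump α 1 θ ≠ 0) : bump α 2 θ = 1 := by
  refine bump_eq_one hα (le_of_lt ?_)
  by_contra hge
  exact h (bump_eq_zero hα (by linarith [not_lt.1 hge]))

theorem abs_bump_sub_le (hα : 0 < α) (m a b : ℝ) :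
    |bump α m a - bump α m b| ≤ |a - b| / α := by
  refine ((abs_max_sub_max_le_max _ _ _ _).trans (max_le ?_ ?_))
  · simp only [sub_self, abs_zero]; positivity
  refine (abs_min_sub_min_le_max _ _ _ _).trans (max_le ?_ ?_)
  · simp only [sub_self, abs_zero]; positivity
  · rw [show m - sn a / α - (m - sn b / α) = (sn b - sn a) / α by ring, abs_div, abs_of_pos hα,
      abs_sub_comm a b]
    exact div_le_div_of_nonneg_right (abs_sn_sub_le b a) hα.le

theorem avg_eq_symm {f : ℝ → ℝ} (hp : Periodic f (2 * Real.pi)) :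
    avg f = (2 * Real.pi)⁻¹ * ∫ θ in (-Real.pi)..Real.pi, f θ := by
  have h := hp.intervalIntegral_add_eq 0 (-Real.pi)
  rw [zero_add, show -Real.pi + 2 * Real.pi = Real.pi by ring] at h
  rw [avg, smul_eq_mul, h]

theorem avg_bump_le (hα : 0 < α) (hm : 0 ≤ m) : avg (bump α m) ≤ m * α / 2 := by
  have hc := continuous_bump α m
  have hpi := Real.pi_pos
  set c : ℝ := Real.pi * m * α / 2 with hcdef
  have hc0 : 0 ≤ c := by positivity
  have e := avg_eq_symm (periodic_bump α m)
  rw [e, inv_mul_le_iff₀ (by positivity)]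
  rcases le_or_gt Real.pi c with h | h
  · refine (intervalIntegral.integral_mono_on (by linarith) (hc.intervalIntegrable _ _)
      (intervalIntegrable_const (c := (1 : ℝ))) fun θ _ => bump_le_one _ _ _).trans ?_
    simp only [intervalIntegral.integral_const, smul_eq_mul, mul_one, sub_neg_eq_add]
    nlinarith
  have hz : ∀ θ : ℝ, c ≤ |θ| → |θ| ≤ Real.pi → bump α m θ = 0 := fun θ h1 h2 =>
    bump_eq_zero hα (le_trans (le_of_eq (by rw [hcdef]; field_simp))
      ((mul_le_mul_of_nonneg_left h1 (by positivity : 0 ≤ 2 / Real.pi)).trans (le_sn h2)))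
  have h1 : ∫ θ in (-Real.pi)..(-c), bump α m θ = 0 := by
    refine (intervalIntegral.integral_congr (g := fun _ => (0 : ℝ)) fun θ hθ => ?_).trans (by simp)
    rw [Set.uIcc_of_le (by linarith)] at hθ
    have : |θ| = -θ := abs_of_nonpos (by linarith [hθ.2])
    exact hz θ (by linarith [hθ.2]) (by linarith [hθ.1])
  have h3 : ∫ θ in c..Real.pi, bump α m θ = 0 := by
    refine (intervalIntegral.integral_congr (g := fun _ => (0 : ℝ)) fun θ hθ => ?_).trans (by simp)
    rw [Set.uIcc_of_le (by linarith)] at hθ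
    have : |θ| = θ := abs_of_nonneg (by linarith [hθ.1])
    exact hz θ (by linarith [hθ.1]) (by linarith [hθ.2])
  have h2 : ∫ θ in (-c)..c, bump α m θ ≤ 2 * c := by
    refine (intervalIntegral.integral_mono_on (by linarith) (hc.intervalIntegrable _ _)
      (intervalIntegrable_const (c := (1 : ℝ))) fun θ _ => bump_le_one _ _ _).trans ?_
    simp only [intervalIntegral.integral_const, smul_eq_mul, mul_one, sub_neg_eq_add]
    linarith
  rw [← intervalIntegral.integral_add_adjacent_intervals (hc.intervalIntegrable (-Real.pi) (-c))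
    (hc.intervalIntegrable (-c) Real.pi),
    ← intervalIntegral.integral_add_adjacent_intervals (hc.intervalIntegrable (-c) c)
    (hc.intervalIntegrable c Real.pi), h1, h3]
  rw [hcdef] at h2
  linarith

theorem le_avg_bump_one (hα : 0 < α) (hα1 : α ≤ 1) : α / (4 * Real.pi) ≤ avg (bump α 1) := by
  have hc := continuous_bump α 1
  have hpi := Real.pi_pos
  have hpi2 := Real.two_le_pi
  rw [avg_eq_symm (periodic_bump α 1)]
  rw [le_inv_mul_iff₀ (by positivity)]
  refine le_trans ?_ (intervalIntegral.integral_mono_interval (a := -(α / 2)) (b := α / 2)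
    (by linarith) (by linarith) (by linarith)
    (Eventually.of_forall fun θ => bump_nonneg _ _ _) (hc.intervalIntegrable _ _))
  refine le_trans ?_ (intervalIntegral.integral_mono_on (by linarith)
    (intervalIntegrable_const (c := (1 / 2 : ℝ))) (hc.intervalIntegrable _ _) fun θ hθ => ?_)
  · simp only [intervalIntegral.integral_const, smul_eq_mul]
    refine le_of_eq ?_
    field_simp
    ring
  · have h1 : sn θ / α ≤ 1 / 2 := by
      rw [div_le_iff₀ hα]
      refine (sn_le_abs θ).trans (abs_le.2 ⟨by linarith [hθ.1], by linarith [hθ.2]⟩)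
    rw [bump, min_eq_right (by have : 0 ≤ sn θ / α := div_nonneg (by rw [sn]; positivity) hα.le; linarith)]
    exact le_max_of_le_right (by linarith)

theorem avg_sq_bump_sub_le (hα : 0 < α) (hm : m ≤ 2) (τ : ℝ) :
    avg (fun θ => (bump α m (θ + τ) - bump α m θ) ^ 2) ≤ 3 * τ ^ 2 / α := by
  have hc := continuous_bump α m
  have hc3 := continuous_bump α 3
  have hone : ∀ θ, bump α m θ ≠ 0 → bump α 3 θ = 1 := fun θ h =>
    bump_eq_one hα (by
      by_contra hge
      exact h (bump_eq_zero hα (by nlinarith [not_le.1 hge])))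
  refine (avg_mono (by fun_prop) (by fun_prop : Continuous fun θ =>
    (τ / α) ^ 2 * (bump α 3 (θ + τ) + bump α 3 θ)) fun θ => ?_).trans ?_
  · by_cases h : bump α m (θ + τ) = 0 ∧ bump α m θ = 0
    · rw [h.1, h.2, sub_zero, zero_pow two_ne_zero]
      have := bump_nonneg α 3 (θ + τ)
      have := bump_nonneg α 3 θ
      positivity
    · have h2 := pow_le_pow_left₀ (abs_nonneg _) (abs_bump_sub_le hα m (θ + τ) θ) 2
      rw [sq_abs, add_sub_cancel_left, div_pow, sq_abs, ← div_pow] at h2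
      refine h2.trans (le_mul_of_one_le_right (sq_nonneg _) ?_)
      rw [not_and_or] at h
      rcases h with h | h <;> rw [hone _ h] <;> linarith [bump_nonneg α 3 θ, bump_nonneg α 3 (θ + τ)]
  · rw [avg_mul_const, avg_add (by fun_prop) hc3, avg_translate (periodic_bump α 3)]
    have h3 := avg_bump_le hα (show (0 : ℝ) ≤ 3 by norm_num)
    calc (τ / α) ^ 2 * (avg (bump α 3) + avg (bump α 3)) ≤ (τ / α) ^ 2 * (3 * α) :=
          mul_le_mul_of_nonneg_left (by linarith) (sq_nonneg _)
      _ = 3 * τ ^ 2 / α := by field_simp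

/-! ### Estimates for functions of class `C³` -/

variable {X Y : Type*} [NormedAddCommGroup X] [NormedSpace ℝ X] [NormedAddCommGroup Y]
  [NormedSpace ℝ Y]

theorem exists_lip_of_contDiffOn [ProperSpace X] {f : X → Y} {O : Set X}
    (hf : ContDiffOn ℝ 1 f O) {x₀ : X} {r : ℝ} (hr : closedBall x₀ r ⊆ O) :
    ∃ L : ℝ, 0 ≤ L ∧ ∀ x ∈ closedBall x₀ r, ∀ y ∈ closedBall x₀ r,
      ‖f x - f y‖ ≤ L * ‖x - y‖ := by
  obtain ⟨K, hK⟩ := (hf.mono hr).exists_lipschitzOnWith one_ne_zero (convex_closedBall x₀ r)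
    (isCompact_closedBall x₀ r)
  exact ⟨K, K.2, fun x hx y hy => by
    simpa [dist_eq_norm] using hK.dist_le_mul x hx y hy⟩

theorem mixed_le {g : X → Y} {O : Set X} (hO : IsOpen O) (hg : DifferentiableOn ℝ g O) {x₀ : X}
    {r L : ℝ} (hr : closedBall x₀ (2 * r) ⊆ O)
    (hL : ∀ x ∈ closedBall x₀ (2 * r), ∀ y ∈ closedBall x₀ (2 * r),
      ‖fderiv ℝ g x - fderiv ℝ g y‖ ≤ L * ‖x - y‖)
    {x y w : X} (hx : x ∈ closedBall x₀ r) (hy : y ∈ closedBall x₀ r) (hw : ‖w‖ ≤ r) :
    ‖g (x + w) - g x - (g (y + w) - g y)‖ ≤ L * ‖x - y‖ * ‖w‖ := by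
  have hmem : ∀ z ∈ closedBall x₀ r, ∀ s ∈ Icc (0 : ℝ) 1, z + s • w ∈ closedBall x₀ (2 * r) := by
    intro z hz s hs
    rw [mem_closedBall, dist_eq_norm] at hz ⊢
    rw [add_sub_right_comm]
    refine (norm_add_le _ _).trans ?_
    rw [norm_smul, Real.norm_of_nonneg hs.1]
    have := mul_le_mul hs.2 hw (norm_nonneg _) zero_le_one
    linarith
  have hd : ∀ z ∈ closedBall x₀ r, ∀ s ∈ Icc (0 : ℝ) 1,
      HasDerivAt (fun s : ℝ => g (z + s • w)) (fderiv ℝ g (z + s • w) w) s := by
    intro z hz s hs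
    refine ((hg.differentiableAt (hO.mem_nhds (hr (hmem z hz s hs)))).hasFDerivAt).comp_hasDerivAt s ?_
    simpa using ((hasDerivAt_id s).smul_const w).const_add z
  have h := norm_image_sub_le_of_norm_deriv_le_segment_01' (C := L * ‖x - y‖ * ‖w‖)
    (fun s hs => ((hd x hx s hs).sub (hd y hy s hs)).hasDerivWithinAt) fun s hs => by
      rw [← sub_apply]
      refine (ContinuousLinearMap.le_opNorm _ _).trans (mul_le_mul_of_nonneg_right ?_ (norm_nonneg _))
      refine (hL _ (hmem x hx s (Ico_subset_Icc_self hs)) _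
        (hmem y hy s (Ico_subset_Icc_self hs))).trans (le_of_eq ?_)
      rw [add_sub_add_right_eq_sub]
  refine le_trans (le_of_eq ?_) h
  simp only [Pi.sub_apply, one_smul, zero_smul, add_zero]
  congr 1
  abel

/-- The Taylor remainder of order two. -/
def tay (g : X → Y) (x w : X) : Y := g (x + w) - g x - fderiv ℝ g x w

theorem tay_zero (g : X → Y) (x : X) : tay g x 0 = 0 := by simp [tay]

/-- Second order estimates on a ball for a function of class `C³`. -/
theorem exists_taylor_bounds [ProperSpace X] {g : X → Y} {O : Set X} (hO : IsOpen O)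
    (hg : ContDiffOn ℝ 3 g O) {x₀ : X} {r : ℝ} (hr : closedBall x₀ (2 * r) ⊆ O) :
    ∃ L : ℝ, 0 ≤ L ∧
      (∀ x ∈ closedBall x₀ r, ∀ y ∈ closedBall x₀ r, ∀ w : X, ‖w‖ ≤ r →
        ‖g (x + w) - g x - (g (y + w) - g y)‖ ≤ L * ‖x - y‖ * ‖w‖) ∧
      (∀ x ∈ closedBall x₀ r, ∀ y ∈ closedBall x₀ r, ∀ w : X, ‖w‖ ≤ r →
        ‖tay g x w - tay g y w‖ ≤ L * ‖x - y‖ * ‖w‖ ^ 2) ∧
      (∀ y ∈ closedBall x₀ r, ∀ w w' : X, ‖w‖ ≤ r → ‖w'‖ ≤ r →
        ‖tay g y w - tay g y w'‖ ≤ L * (‖w‖ + ‖w'‖) * ‖w - w'‖) := by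
  have hg1 : ContDiffOn ℝ 2 (fderiv ℝ g) O := hg.fderiv_of_isOpen hO (by norm_num)
  have hg2 : ContDiffOn ℝ 1 (fderiv ℝ (fderiv ℝ g)) O := hg1.fderiv_of_isOpen hO (by norm_num)
  obtain ⟨L₁, hL₁, h₁⟩ := exists_lip_of_contDiffOn (hg1.of_le (by norm_num)) hr
  obtain ⟨L₂, hL₂, h₂⟩ := exists_lip_of_contDiffOn hg2 hr
  have hd0 : DifferentiableOn ℝ g O := hg.differentiableOn (by norm_num)
  have hd1 : DifferentiableOn ℝ (fderiv ℝ g) O := hg1.differentiableOn (by norm_num)
  refine ⟨max L₁ L₂, hL₁.trans (le_max_left _ _), fun x hx y hy w hw => ?_,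
    fun x hx y hy w hw => ?_, fun y hy w w' hw hw' => ?_⟩
  · refine (mixed_le hO hd0 hr h₁ hx hy hw).trans ?_
    gcongr
    exact le_max_left _ _
  · have hd : ∀ z ∈ closedBall x₀ r, ∀ v ∈ closedBall (0 : X) ‖w‖,
        HasFDerivWithinAt (fun v => tay g z v) (fderiv ℝ g (z + v) - fderiv ℝ g z)
          (closedBall (0 : X) ‖w‖) v := by
      intro z hz v hv
      rw [mem_closedBall, dist_zero_right] at hv
      have hzv : z + v ∈ closedBall x₀ (2 * r) := by
        rw [mem_closedBall, dist_eq_norm] at hz ⊢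
        rw [add_sub_right_comm]
        exact (norm_add_le _ _).trans (by linarith)
      have e := ((hd0.differentiableAt (hO.mem_nhds (hr hzv))).hasFDerivAt.comp v
        ((hasFDerivAt_id v).const_add z))
      rw [ContinuousLinearMap.comp_id] at e
      exact ((e.sub_const (g z)).sub (fderiv ℝ g z).hasFDerivAt).hasFDerivWithinAt
    have h := (convex_closedBall (0 : X) ‖w‖).norm_image_sub_le_of_norm_hasFDerivWithin_le
      (fun v hv => (hd x hx v hv).sub (hd y hy v hv)) (C := max L₁ L₂ * ‖x - y‖ * ‖w‖)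
      (fun v hv => by
        rw [mem_closedBall, dist_zero_right] at hv
        refine (mixed_le hO hd1 hr h₂ hx hy (hv.trans hw)).trans ?_
        gcongr
        exact le_max_right _ _) (x := 0) (y := w) (by simp) (by simp)
    simp only [Pi.sub_apply, tay_zero, sub_self, sub_zero] at h
    exact h.trans_eq (by ring)
  · set M := max ‖w‖ ‖w'‖
    have hMr : M ≤ r := max_le hw hw'
    have hy' : y ∈ closedBall x₀ (2 * r) := by
      rw [mem_closedBall] at hy ⊢; linarith [norm_nonneg w]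
    have hd : ∀ v ∈ closedBall (0 : X) M, y + v ∈ closedBall x₀ (2 * r) := by
      intro v hv
      rw [mem_closedBall, dist_zero_right] at hv
      rw [mem_closedBall, dist_eq_norm] at hy ⊢
      rw [add_sub_right_comm]
      exact (norm_add_le _ _).trans (by linarith)
    have h := (convex_closedBall (0 : X) M).norm_image_sub_le_of_norm_hasFDerivWithin_le
      (f := fun v => tay g y v) (f' := fun v => fderiv ℝ g (y + v) - fderiv ℝ g y)
      (fun v hv => by
        have e := ((hd0.differentiableAt (hO.mem_nhds (hr (hd v hv)))).hasFDerivAt.comp v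
          ((hasFDerivAt_id v).const_add y))
        rw [ContinuousLinearMap.comp_id] at e
        exact ((e.sub_const (g y)).sub (fderiv ℝ g y).hasFDerivAt).hasFDerivWithinAt)
      (C := max L₁ L₂ * (‖w‖ + ‖w'‖))
      (fun v hv => by
        refine (h₁ _ (hd v hv) _ hy').trans ?_
        rw [add_sub_cancel_left]
        rw [mem_closedBall, dist_zero_right] at hv
        exact mul_le_mul (le_max_left _ _)
          (hv.trans (max_le_add_of_nonneg (norm_nonneg _) (norm_nonneg _))) (norm_nonneg _)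
          (hL₁.trans (le_max_left _ _)))
      (x := w') (y := w) (by simp [M]) (by simp [M])
    exact h

/-- The coordinatewise retraction on a cube. -/
def clp {k : ℕ} (b : ℝ) (u : Rn k) : Rn k := WithLp.toLp 2 fun i => max (-b) (min b (u i))

theorem norm_clp_sub_le {k : ℕ} (b : ℝ) (u v : Rn k) : ‖clp b u - clp b v‖ ≤ ‖u - v‖ := by
  refine le_of_pow_le_pow_left₀ two_ne_zero (norm_nonneg _) ?_
  simp only [PiLp.norm_sq_eq_of_L2, PiLp.sub_apply, Real.norm_eq_abs]
  refine Finset.sum_le_sum fun i _ => pow_le_pow_left₀ (abs_nonneg _) ?_ 2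
  refine ((abs_max_sub_max_le_max _ _ _ _).trans (max_le (by simp) ?_))
  exact (abs_min_sub_min_le_max _ _ _ _).trans (max_le (by simp) le_rfl)

theorem continuous_clp {k : ℕ} (b : ℝ) : Continuous (clp (k := k) b) :=
  (LipschitzWith.of_dist_le_mul (K := 1) fun u v => by
    simpa [dist_eq_norm] using norm_clp_sub_le b u v).continuous

theorem norm_clp_le {k : ℕ} {b : ℝ} (hb : 0 ≤ b) (u : Rn k) : ‖clp b u‖ ≤ ((k : ℝ) + 1) * b := by
  refine le_of_pow_le_pow_left₀ two_ne_zero (by positivity) ?_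
  rw [PiLp.norm_sq_eq_of_L2]
  refine (Finset.sum_le_sum (g := fun _ => b ^ 2) fun i _ => ?_).trans ?_
  · refine pow_le_pow_left₀ (norm_nonneg _) ?_ 2
    rw [Real.norm_eq_abs, abs_le]
    exact ⟨le_max_left _ _, max_le (by linarith) (min_le_left _ _)⟩
  · rw [Finset.sum_const, Finset.card_univ, Fintype.card_fin, nsmul_eq_mul, mul_pow]
    refine mul_le_mul_of_nonneg_right ?_ (sq_nonneg b)
    nlinarith [Nat.cast_nonneg (α := ℝ) k]

theorem clp_zero {k : ℕ} {b : ℝ} (hb : 0 ≤ b) : clp b (0 : Rn k) = 0 := by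
  ext i; simp [clp, hb]

theorem clp_eq {k : ℕ} {b : ℝ} {u : Rn k} (h : ‖u‖ ≤ b) : clp b u = u := by
  ext i
  have h2 : |u i| ≤ b := by simpa [Real.norm_eq_abs] using (PiLp.norm_apply_le u i).trans h
  rw [abs_le] at h2
  simp [clp, h2.1, h2.2]

end

end Vale.Agent.P274.Full
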