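import Vale.Agent.P274.Full.Inner.Series
import Vale.Agent.P274.Full.Inner.Profile
import Vale.Agent.P274.Full.Stmts
import Mathlib.Topology.MetricSpace.Contracting

/-!
Discs attached to the path above the edge, by contraction in the mean square norm.
-/

open Filter Metric Set Function Topology MeasureTheory

namespace Vale.Agent.P274.Full

noncomputable section

/-- The inclusion of the totally real directions. -/
def ins (m : ℕ) {k : ℕ} (w : Rn k) : Cn m × Rn k := (0, w)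

theorem norm_ins (m : ℕ) {k : ℕ} (w : Rn k) : ‖ins m w‖ = ‖w‖ := by
  simp [ins, Prod.norm_def]

theorem ins_sub (m : ℕ) {k : ℕ} (w w' : Rn k) : ins m (w - w') = ins m w - ins m w' := by
  simp [ins]

theorem ins_zero (m : ℕ) {k : ℕ} : ins m (0 : Rn k) = 0 := rfl

theorem continuous_ins (m : ℕ) {k : ℕ} : Continuous (ins m (k := k)) :=
  continuous_const.prodMk continuous_id

variable {N₀ m k : ℕ} {D : CDom N₀} {P : Patch D m k}

/-- A window of the edge with the constants of the estimates. -/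
structure Win (P : Patch D m k) where
  H : Horn P
  x₀ : Cn m × Rn k
  R : ℝ
  R_pos : 0 < R
  C : ℝ
  C_nonneg : 0 ≤ C
  L : ℝ
  L_nonneg : 0 ≤ L
  sub : closedBall x₀ (2 * R) ⊆ H.S'
  lip_h : ∀ x ∈ closedBall x₀ (2 * R), ∀ y ∈ closedBall x₀ (2 * R),
    ‖P.h x - P.h y‖ ≤ 1 / 4 * ‖x - y‖
  lip_x : ∀ x ∈ H.S', ∀ y ∈ H.S', ∀ t ∈ Icc 0 H.t₀, ‖H.e x t - H.e y t‖ ≤ C * t * ‖x - y‖
  lip_t : ∀ x ∈ H.S', ∀ s ∈ Icc 0 H.t₀, ∀ t ∈ Icc 0 H.t₀, ‖H.e x s - H.e x t‖ ≤ C * |s - t|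
  mixed : ∀ x ∈ closedBall x₀ R, ∀ y ∈ closedBall x₀ R, ∀ w : Cn m × Rn k, ‖w‖ ≤ R →
    ‖P.h (x + w) - P.h x - (P.h (y + w) - P.h y)‖ ≤ L * ‖x - y‖ * ‖w‖
  tay_x : ∀ x ∈ closedBall x₀ R, ∀ y ∈ closedBall x₀ R, ∀ w : Cn m × Rn k, ‖w‖ ≤ R →
    ‖tay P.h x w - tay P.h y w‖ ≤ L * ‖x - y‖ * ‖w‖ ^ 2
  tay_w : ∀ y ∈ closedBall x₀ R, ∀ w w' : Cn m × Rn k, ‖w‖ ≤ R → ‖w'‖ ≤ R →
    ‖tay P.h y w - tay P.h y w'‖ ≤ L * (‖w‖ + ‖w'‖) * ‖w - w'‖

theorem exists_win (hH : Horn P) : ∃ W : Win P, W.H = hH := by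
  obtain ⟨x₀, hx₀⟩ := hH.nonempty_S'
  obtain ⟨r, hr, hsub⟩ := Metric.isOpen_iff.1 hH.isOpen_S' x₀ hx₀
  have hball : closedBall x₀ (2 * (r / 4)) ⊆ hH.S' := fun y hy => hsub (by
    rw [mem_closedBall] at hy; rw [mem_ball]; linarith)
  have hS : closedBall x₀ (2 * (r / 4)) ⊆ P.S := hball.trans hH.sub
  obtain ⟨L, hL, h1, h2, h3⟩ := exists_taylor_bounds P.isOpen_S P.smooth_h hS
  refine ⟨⟨hH, x₀, r / 4, by linarith, |hH.C|, abs_nonneg _, L, hL, hball, fun x hx y hy => ?_,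
    fun x hx y hy t ht => ?_, fun x hx s hs t ht => ?_, h1, h2, h3⟩, rfl⟩
  · exact (convex_closedBall x₀ _).norm_image_sub_le_of_norm_fderiv_le
      (fun z hz => (P.smooth_h.differentiableOn (by norm_num)).differentiableAt
        (P.isOpen_S.mem_nhds (hS hz))) (fun z hz => P.small_h z (hS hz)) hy hx
  · refine (hH.lip_x x hx y hy t ht).trans ?_
    gcongr
    · exact ht.1
    · exact le_abs_self _
  · exact (hH.lip_t x hx s hs t ht).trans
      (mul_le_mul_of_nonneg_right (le_abs_self _) (abs_nonneg _))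

namespace Win

variable (W : Win P)

/-- The size of the cube of admissible offsets. -/
def b : ℝ := W.R / ((k : ℝ) + 1)

theorem b_nonneg : 0 ≤ W.b := div_nonneg W.R_pos.le (by positivity)

theorem norm_clp (w : Rn k) : ‖clp W.b w‖ ≤ W.R := by
  refine (norm_clp_le W.b_nonneg w).trans (le_of_eq ?_)
  rw [b]; field_simp

theorem norm_clp_le_self (w : Rn k) : ‖clp W.b w‖ ≤ ‖w‖ := by
  simpa [clp_zero W.b_nonneg] using norm_clp_sub_le W.b w 0

/-- The offset point. -/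
def pt (x : Cn m × Rn k) (w : Rn k) : Cn m × Rn k := x + ins m (clp W.b w)

theorem pt_mem {x : Cn m × Rn k} (hx : x ∈ closedBall W.x₀ W.R) (w : Rn k) :
    W.pt x w ∈ closedBall W.x₀ (2 * W.R) := by
  rw [mem_closedBall, dist_eq_norm] at hx ⊢
  rw [pt, add_sub_right_comm]
  refine (norm_add_le _ _).trans ?_
  rw [norm_ins]
  linarith [W.norm_clp w]

theorem mem_two {x : Cn m × Rn k} (hx : x ∈ closedBall W.x₀ W.R) :
    x ∈ closedBall W.x₀ (2 * W.R) := by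
  rw [mem_closedBall] at hx ⊢; linarith [W.R_pos]

theorem norm_pt_sub (x y : Cn m × Rn k) (w w' : Rn k) :
    ‖W.pt x w - W.pt y w'‖ ≤ ‖x - y‖ + ‖w - w'‖ := by
  rw [pt, pt, add_sub_add_comm, ← ins_sub]
  exact (norm_add_le _ _).trans
    (add_le_add le_rfl (by rw [norm_ins]; exact norm_clp_sub_le W.b w w'))

/-- The height over `h x` of the path above the offset point. -/
def field (x : Cn m × Rn k) (w : Rn k) (t : ℝ) : Rn k :=
  P.h (W.pt x w) - P.h x + W.H.e (W.pt x w) t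

theorem field_zero (x : Cn m × Rn k) (t : ℝ) : W.field x 0 t = W.H.e x t := by
  simp [field, pt, clp_zero W.b_nonneg, ins_zero]

theorem norm_field_sub {x : Cn m × Rn k} (hx : x ∈ closedBall W.x₀ W.R) (w w' : Rn k) {t t' : ℝ}
    (ht : t ∈ Icc 0 W.H.t₀) (ht' : t' ∈ Icc 0 W.H.t₀) :
    ‖W.field x w t - W.field x w' t'‖ ≤ (1 / 4 + W.C * t) * ‖w - w'‖ + W.C * |t - t'| := by
  have hp : ‖W.pt x w - W.pt x w'‖ ≤ ‖w - w'‖ := by simpa using W.norm_pt_sub x x w w'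
  have e : W.field x w t - W.field x w' t' = (P.h (W.pt x w) - P.h (W.pt x w')) +
      (W.H.e (W.pt x w) t - W.H.e (W.pt x w') t) +
      (W.H.e (W.pt x w') t - W.H.e (W.pt x w') t') := by
    simp only [field]; abel
  rw [e, add_mul]
  refine (norm_add₃_le).trans (add_le_add (add_le_add ?_ ?_) ?_)
  · exact (W.lip_h _ (W.pt_mem hx w) _ (W.pt_mem hx w')).trans (by linarith)
  · exact (W.lip_x _ (W.sub (W.pt_mem hx w)) _ (W.sub (W.pt_mem hx w')) t ht).trans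
      (mul_le_mul_of_nonneg_left hp (mul_nonneg W.C_nonneg ht.1))
  · exact W.lip_t _ (W.sub (W.pt_mem hx w')) t ht t' ht'

theorem norm_field_sub_base {x y : Cn m × Rn k} (hx : x ∈ closedBall W.x₀ W.R)
    (hy : y ∈ closedBall W.x₀ W.R) (w w' : Rn k) {t : ℝ} (ht : t ∈ Icc 0 W.H.t₀) :
    ‖W.field x w t - W.field y w' t‖ ≤
      W.L * ‖x - y‖ * ‖w‖ + 1 / 4 * ‖w - w'‖ + W.C * t * (‖x - y‖ + ‖w - w'‖) := by
  have e : W.field x w t - W.field y w' t =
      (P.h (x + ins m (clp W.b w)) - P.h x - (P.h (y + ins m (clp W.b w)) - P.h y)) +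
      (P.h (W.pt y w) - P.h (W.pt y w')) + (W.H.e (W.pt x w) t - W.H.e (W.pt y w') t) := by
    simp only [field, pt]; abel
  rw [e]
  refine (norm_add₃_le).trans (add_le_add (add_le_add ?_ ?_) ?_)
  · refine (W.mixed x hx y hy _ (by rw [norm_ins]; exact W.norm_clp w)).trans ?_
    rw [norm_ins]
    exact mul_le_mul_of_nonneg_left (W.norm_clp_le_self w)
      (mul_nonneg W.L_nonneg (norm_nonneg _))
  · refine (W.lip_h _ (W.pt_mem hy w) _ (W.pt_mem hy w')).trans ?_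
    have h := W.norm_pt_sub y y w w'
    rw [sub_self, norm_zero, zero_add] at h
    linarith
  · exact (W.lip_x _ (W.sub (W.pt_mem hx w)) _ (W.sub (W.pt_mem hy w')) t ht).trans
      (mul_le_mul_of_nonneg_left (W.norm_pt_sub x y w w') (mul_nonneg W.C_nonneg ht.1))

end Win

/-- The scale, width and degree of the discs. -/
structure Cfg (W : Win P) where
  t₀ : ℝ
  α : ℝ
  N : ℕ
  t₀_pos : 0 < t₀
  t₀_le : t₀ ≤ W.H.t₀
  t₀_le_one : t₀ ≤ 1
  t₀_small : W.C * t₀ ≤ 1 / 12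
  α_pos : 0 < α
  α_le : α ≤ 1

/-- The data of one disc. -/
structure Inp {W : Win P} (cf : Cfg W) where
  x : Cn m × Rn k
  β : Rn k
  s : ℝ
  hx : x ∈ closedBall W.x₀ W.R
  hβ : ‖β‖ ≤ cf.t₀
  hs : s ∈ Icc (0 : ℝ) 1

namespace Inp

variable {W : Win P} {cf : Cfg W} (i : Inp cf)

/-- The base height. -/
def a : ℝ := (1 - i.s) * cf.t₀ + i.s * (cf.α * cf.t₀)

/-- The height profile. -/
def tm (θ : ℝ) : ℝ := i.a + i.s * ((1 - cf.α) * cf.t₀) * bump cf.α 2 θ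

/-- The perturbation on the plateau. -/
def bb (θ : ℝ) : Rn k := (i.s * bump cf.α 1 θ) • i.β

theorem a_mem : i.a ∈ Icc (cf.α * cf.t₀) cf.t₀ := by
  obtain ⟨h0, h1⟩ := i.hs
  have := mul_le_mul_of_nonneg_right cf.α_le cf.t₀_pos.le
  constructor <;> (simp only [a]; nlinarith)

theorem tm_mem (θ : ℝ) : i.tm θ ∈ Icc (cf.α * cf.t₀) cf.t₀ := by
  obtain ⟨h0, h1⟩ := i.hs
  have hb0 := bump_nonneg cf.α 2 θ
  have hb1 := bump_le_one cf.α 2 θ
  have h2 : 0 ≤ i.s * ((1 - cf.α) * cf.t₀) :=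
    mul_nonneg h0 (mul_nonneg (by linarith [cf.α_le]) cf.t₀_pos.le)
  refine ⟨le_trans i.a_mem.1 (le_add_of_nonneg_right (mul_nonneg h2 hb0)), ?_⟩
  calc i.tm θ ≤ i.a + i.s * ((1 - cf.α) * cf.t₀) := by
        rw [tm]; linarith [mul_le_of_le_one_right h2 hb1]
    _ = cf.t₀ := by rw [a]; ring

theorem tm_mem' (θ : ℝ) : i.tm θ ∈ Icc 0 W.H.t₀ :=
  ⟨le_trans (mul_nonneg cf.α_pos.le cf.t₀_pos.le) (i.tm_mem θ).1, (i.tm_mem θ).2.trans cf.t₀_le⟩

theorem a_mem' : i.a ∈ Icc 0 W.H.t₀ :=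
  ⟨le_trans (mul_nonneg cf.α_pos.le cf.t₀_pos.le) i.a_mem.1, i.a_mem.2.trans cf.t₀_le⟩

theorem lip_le (θ : ℝ) : 1 / 4 + W.C * i.tm θ ≤ 1 / 3 := by
  have := (mul_le_mul_of_nonneg_left (i.tm_mem θ).2 W.C_nonneg).trans cf.t₀_small
  linarith

theorem abs_tm_sub (θ φ : ℝ) :
    |i.tm θ - i.tm φ| ≤ cf.t₀ * |bump cf.α 2 θ - bump cf.α 2 φ| := by
  rw [tm, tm, show i.a + i.s * ((1 - cf.α) * cf.t₀) * bump cf.α 2 θ -
    (i.a + i.s * ((1 - cf.α) * cf.t₀) * bump cf.α 2 φ) =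
      i.s * ((1 - cf.α) * cf.t₀) * (bump cf.α 2 θ - bump cf.α 2 φ) by ring, abs_mul]
  refine mul_le_mul_of_nonneg_right ?_ (abs_nonneg _)
  obtain ⟨h0, h1⟩ := i.hs
  have h2 : 0 ≤ (1 - cf.α) * cf.t₀ := mul_nonneg (by linarith [cf.α_le]) cf.t₀_pos.le
  rw [abs_of_nonneg (mul_nonneg h0 h2)]
  have := mul_le_of_le_one_left h2 h1
  nlinarith [mul_nonneg cf.α_pos.le cf.t₀_pos.le]

theorem norm_bb_sub (θ φ : ℝ) :
    ‖i.bb θ - i.bb φ‖ ≤ cf.t₀ * |bump cf.α 1 θ - bump cf.α 1 φ| := by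
  rw [bb, bb, ← sub_smul, norm_smul, Real.norm_eq_abs, ← mul_sub, abs_mul,
    abs_of_nonneg i.hs.1, mul_comm cf.t₀]
  exact mul_le_mul (mul_le_of_le_one_left (abs_nonneg _) i.hs.2) i.hβ (norm_nonneg _)
    (abs_nonneg _)

theorem continuous_tm : Continuous i.tm := by
  have := continuous_bump cf.α 2
  unfold tm; fun_prop

theorem continuous_bb : Continuous i.bb := by
  have := continuous_bump cf.α 1
  unfold bb; fun_prop

theorem periodic_tm : Periodic i.tm (2 * Real.pi) := fun θ => by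
  simp only [tm, periodic_bump cf.α 2 θ]

theorem periodic_bb : Periodic i.bb (2 * Real.pi) := fun θ => by
  simp only [bb, periodic_bump cf.α 1 θ]

/-- The boundary height of the disc with coefficients `c`. -/
def val (c : Cf cf.N k) (θ : ℝ) : Rn k := W.field i.x (rv (bd c θ)) (i.tm θ) + i.bb θ

theorem continuous_val (c : Cf cf.N k) : Continuous (i.val c) := by
  have hw : Continuous fun θ => W.pt i.x (rv (bd c θ)) :=
    continuous_const.add ((continuous_ins m).comp ((continuous_clp W.b).comp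
      ((rvL k).continuous.comp (continuous_bd c))))
  refine ((Continuous.sub ?_ continuous_const).add ?_).add i.continuous_bb
  · exact P.smooth_h.continuousOn.comp_continuous hw
      fun θ => W.H.sub (W.sub (W.pt_mem i.hx _))
  · exact W.H.cont.comp_continuous (hw.prodMk i.continuous_tm)
      fun θ => ⟨W.sub (W.pt_mem i.hx _),
        (i.tm_mem' θ).1, (i.tm_mem' θ).2⟩

theorem periodic_val (c : Cf cf.N k) : Periodic (i.val c) (2 * Real.pi) := fun θ => by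
  simp only [val, periodic_bd c θ, i.periodic_tm θ, i.periodic_bb θ]

theorem norm_val_sub (c c' : Cf cf.N k) (θ : ℝ) :
    ‖i.val c θ - i.val c' θ‖ ≤ 1 / 3 * ‖rv (bd (c - c') θ)‖ := by
  rw [val, val, add_sub_add_right_eq_sub]
  refine (W.norm_field_sub i.hx _ _ (i.tm_mem' θ) (i.tm_mem' θ)).trans ?_
  rw [sub_self, abs_zero, mul_zero, add_zero,
    show rv (bd (c - c') θ) = rv (bd c θ) - rv (bd c' θ) by
      simp only [bd, pol_sub, ← rvL_apply, map_sub]]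
  exact mul_le_mul_of_nonneg_right (i.lip_le θ) (norm_nonneg _)

/-- The map whose fixed point is the disc. -/
def step (c : Cf cf.N k) : Cf cf.N k := proj cf.N (i.val c)

theorem contracting : ContractingWith (1 / 3) i.step := by
  refine ⟨by rw [← NNReal.coe_lt_coe]; norm_num, LipschitzWith.of_dist_le_mul fun c c' => ?_⟩
  rw [dist_eq_norm, dist_eq_norm, step, step,
    ← proj_sub (i.continuous_val c) (i.continuous_val c')]
  refine le_of_pow_le_pow_left₀ two_ne_zero (by positivity) ?_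
  have hc := (rvL k).continuous.comp (continuous_bd (c - c'))
  refine (norm_sq_proj_le ((i.continuous_val c).sub (i.continuous_val c'))).trans ?_
  refine (mul_le_mul_of_nonneg_left (avg_mono (g := fun θ => (1 / 9 : ℝ) * ‖rv (bd (c - c') θ)‖ ^ 2)
    (((i.continuous_val c).sub (i.continuous_val c')).norm.pow 2)
    (continuous_const.mul (hc.norm.pow 2)) fun θ => ?_) zero_le_two).trans (le_of_eq ?_)
  · refine (pow_le_pow_left₀ (norm_nonneg _) (i.norm_val_sub c c' θ) 2).trans (le_of_eq ?_)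
    ring
  · rw [avg_mul_const, avg_norm_sq_rv_bd]
    push_cast
    ring

/-- The coefficients of the disc. -/
def sol : Cf cf.N k := ContractingWith.fixedPoint i.step i.contracting

theorem proj_sol : proj cf.N (i.val i.sol) = i.sol :=
  i.contracting.fixedPoint_isFixedPt

/-- The boundary real part. -/
def w (θ : ℝ) : Rn k := rv (bd i.sol θ)

theorem continuous_w : Continuous i.w := (rvL k).continuous.comp (continuous_bd _)

theorem avg_sq_w : avg (fun θ => ‖i.w θ‖ ^ 2) = ‖i.sol‖ ^ 2 / 2 := avg_norm_sq_rv_bd _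

theorem norm_val_sub_base (θ : ℝ) :
    ‖i.val i.sol θ - W.H.e i.x i.a‖ ≤
      1 / 3 * ‖i.w θ‖ + (W.C + 1) * cf.t₀ * bump cf.α 2 θ := by
  have h := W.norm_field_sub i.hx (i.w θ) 0 (i.tm_mem' θ) i.a_mem'
  rw [W.field_zero, sub_zero] at h
  have hb : ‖i.bb θ‖ ≤ cf.t₀ * bump cf.α 2 θ := by
    rw [bb, norm_smul, Real.norm_of_nonneg (mul_nonneg i.hs.1 (bump_nonneg _ _ _)),
      mul_comm cf.t₀]
    refine mul_le_mul ((mul_le_of_le_one_left (bump_nonneg _ _ _) i.hs.2).trans ?_) i.hβ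
      (norm_nonneg _) (bump_nonneg _ _ _)
    by_cases h0 : bump cf.α 1 θ = 0
    · rw [h0]; exact bump_nonneg _ _ _
    · rw [bump_plateau cf.α_pos h0]; exact bump_le_one _ _ _
  have hta : |i.tm θ - i.a| ≤ cf.t₀ * bump cf.α 2 θ := by
    have h2 : 0 ≤ (1 - cf.α) * cf.t₀ := mul_nonneg (by linarith [cf.α_le]) cf.t₀_pos.le
    rw [tm, add_sub_cancel_left,
      abs_of_nonneg (mul_nonneg (mul_nonneg i.hs.1 h2) (bump_nonneg _ _ _))]
    refine mul_le_mul_of_nonneg_right ?_ (bump_nonneg _ _ _)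
    have := mul_le_of_le_one_left h2 i.hs.2
    nlinarith [mul_nonneg cf.α_pos.le cf.t₀_pos.le]
  calc ‖i.val i.sol θ - W.H.e i.x i.a‖
      = ‖(W.field i.x (i.w θ) (i.tm θ) - W.H.e i.x i.a) + i.bb θ‖ := by
        rw [val, w, add_sub_right_comm]
    _ ≤ ((1 / 4 + W.C * i.tm θ) * ‖i.w θ‖ + W.C * |i.tm θ - i.a|) + ‖i.bb θ‖ :=
        (norm_add_le _ _).trans (add_le_add h le_rfl)
    _ ≤ (1 / 3 * ‖i.w θ‖ + W.C * (cf.t₀ * bump cf.α 2 θ)) + cf.t₀ * bump cf.α 2 θ :=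
        add_le_add (add_le_add (mul_le_mul_of_nonneg_right (i.lip_le θ) (norm_nonneg _))
          (mul_le_mul_of_nonneg_left hta W.C_nonneg)) hb
    _ = _ := by ring

theorem norm_sq_sol_le : ‖i.sol‖ ^ 2 ≤ 6 * ((W.C + 1) * cf.t₀) ^ 2 * cf.α := by
  have hw := i.continuous_w
  have hb := continuous_bump cf.α 2
  have hv := i.continuous_val i.sol
  have h := norm_sq_proj_le (N := cf.N) (hv.sub (continuous_const (y := W.H.e i.x i.a)))
  rw [show (i.val i.sol - fun _ => W.H.e i.x i.a) = fun θ => i.val i.sol θ - W.H.e i.x i.a from rfl,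
    proj_sub hv continuous_const, proj_const, sub_zero, i.proj_sol] at h
  have h2 : avg (fun θ => ‖i.val i.sol θ - W.H.e i.x i.a‖ ^ 2) ≤
      avg fun θ => (2 / 9 : ℝ) * ‖i.w θ‖ ^ 2 +
        2 * ((W.C + 1) * cf.t₀) ^ 2 * bump cf.α 2 θ := by
    refine avg_mono (by fun_prop) (by fun_prop) fun θ => ?_
    refine (pow_le_pow_left₀ (norm_nonneg _) (i.norm_val_sub_base θ) 2).trans ?_
    have := mul_le_mul_of_nonneg_left (bump_sq_le cf.α 2 θ)
      (sq_nonneg ((W.C + 1) * cf.t₀))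
    nlinarith [sq_nonneg (1 / 3 * ‖i.w θ‖ - (W.C + 1) * cf.t₀ * bump cf.α 2 θ)]
  rw [avg_add (by fun_prop) (by fun_prop), avg_mul_const, avg_mul_const, i.avg_sq_w] at h2
  have h3 := mul_le_mul_of_nonneg_left (avg_bump_le cf.α_pos (zero_le_two : (0 : ℝ) ≤ 2))
    (by positivity : 0 ≤ 2 * ((W.C + 1) * cf.t₀) ^ 2)
  have h4 : 0 ≤ ((W.C + 1) * cf.t₀) ^ 2 * cf.α := mul_nonneg (sq_nonneg _) cf.α_pos.le
  nlinarith

theorem avg_sq_w_le : avg (fun θ => ‖i.w θ‖ ^ 2) ≤ 3 * ((W.C + 1) * cf.t₀) ^ 2 * cf.α := by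
  rw [i.avg_sq_w]; linarith [i.norm_sq_sol_le]

theorem avg_sq_val_translate (τ : ℝ) :
    avg (fun θ => ‖i.val i.sol (θ + τ) - i.val i.sol θ‖ ^ 2) ≤
      32 * ((W.C + 1) * cf.t₀) ^ 2 / cf.α * τ ^ 2 := by
  have hv := i.continuous_val i.sol
  have hvτ : Continuous fun θ => i.val i.sol (θ + τ) := hv.comp (continuous_id.add continuous_const)
  have hw := i.continuous_w
  have hb1 := continuous_bump cf.α 1
  have hb2 := continuous_bump cf.α 2
  set X := avg (fun θ => ‖i.val i.sol (θ + τ) - i.val i.sol θ‖ ^ 2)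
  have hD : avg (fun θ => ‖i.w (θ + τ) - i.w θ‖ ^ 2) ≤ X := by
    have h := avg_sq_rv_proj_le (N := cf.N) (hvτ.sub hv)
    rw [show ((fun θ => i.val i.sol (θ + τ)) - i.val i.sol) =
        fun θ => i.val i.sol (θ + τ) - i.val i.sol θ from rfl,
      proj_sub hvτ hv, proj_translate (i.periodic_val _), i.proj_sol] at h
    refine le_trans (le_of_eq ?_) h
    congr 1
    funext θ
    rw [show bd (rot τ i.sol - i.sol) θ = bd (rot τ i.sol) θ - bd i.sol θ from pol_sub _ _ _,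
      ← rvL_apply (bd (rot τ i.sol) θ - bd i.sol θ), map_sub, bd_rot]
    rfl
  have hpt : ∀ θ, ‖i.val i.sol (θ + τ) - i.val i.sol θ‖ ^ 2 ≤
      (2 / 9 : ℝ) * ‖i.w (θ + τ) - i.w θ‖ ^ 2 + 4 * ((W.C + 1) * cf.t₀) ^ 2 *
        ((bump cf.α 2 (θ + τ) - bump cf.α 2 θ) ^ 2 +
          (bump cf.α 1 (θ + τ) - bump cf.α 1 θ) ^ 2) := by
    intro θ
    set A := (W.C + 1) * cf.t₀
    set p := |bump cf.α 2 (θ + τ) - bump cf.α 2 θ| with hp
    set q := |bump cf.α 1 (θ + τ) - bump cf.α 1 θ| with hq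
    have h := W.norm_field_sub i.hx (i.w (θ + τ)) (i.w θ) (i.tm_mem' (θ + τ)) (i.tm_mem' θ)
    have h1 : ‖i.val i.sol (θ + τ) - i.val i.sol θ‖ ≤
        1 / 3 * ‖i.w (θ + τ) - i.w θ‖ + A * (p + q) := by
      rw [val, val, add_sub_add_comm]
      refine (norm_add_le _ _).trans ((add_le_add h (i.norm_bb_sub _ _)).trans ?_)
      have e1 := mul_le_mul_of_nonneg_right (i.lip_le (θ + τ)) (norm_nonneg (i.w (θ + τ) - i.w θ))
      have e2 := mul_le_mul_of_nonneg_left (i.abs_tm_sub (θ + τ) θ) W.C_nonneg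
      rw [← hp] at e2
      rw [← hq]
      have : 0 ≤ cf.t₀ * p := mul_nonneg cf.t₀_pos.le (abs_nonneg _)
      have : 0 ≤ W.C * cf.t₀ * q :=
        mul_nonneg (mul_nonneg W.C_nonneg cf.t₀_pos.le) (abs_nonneg _)
      simp only [A]
      linarith
    refine (pow_le_pow_left₀ (norm_nonneg _) h1 2).trans ?_
    rw [← sq_abs (bump cf.α 2 (θ + τ) - bump cf.α 2 θ),
      ← sq_abs (bump cf.α 1 (θ + τ) - bump cf.α 1 θ), ← hp, ← hq]
    nlinarith [sq_nonneg (1 / 3 * ‖i.w (θ + τ) - i.w θ‖ - A * (p + q)),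
      mul_nonneg (sq_nonneg A) (sq_nonneg (p - q))]
  have h := avg_mono (by fun_prop) (by fun_prop) hpt
  rw [avg_add (by fun_prop) (by fun_prop), avg_mul_const, avg_mul_const,
    avg_add (by fun_prop) (by fun_prop)] at h
  have h1 := avg_sq_bump_sub_le cf.α_pos (m := 2) le_rfl τ
  have h2 := avg_sq_bump_sub_le cf.α_pos (m := 1) one_le_two τ
  have h3 := mul_le_mul_of_nonneg_left (add_le_add h1 h2)
    (by positivity : 0 ≤ 4 * ((W.C + 1) * cf.t₀) ^ 2)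
  rw [show 4 * ((W.C + 1) * cf.t₀) ^ 2 * (3 * τ ^ 2 / cf.α + 3 * τ ^ 2 / cf.α) =
    24 * (((W.C + 1) * cf.t₀) ^ 2 * τ ^ 2 / cf.α) by ring] at h3
  rw [show 32 * ((W.C + 1) * cf.t₀) ^ 2 / cf.α * τ ^ 2 =
    32 * (((W.C + 1) * cf.t₀) ^ 2 * τ ^ 2 / cf.α) by ring]
  have h4 : 0 ≤ ((W.C + 1) * cf.t₀) ^ 2 * τ ^ 2 / cf.α :=
    div_nonneg (by positivity) cf.α_pos.le
  linarith

theorem sum_norm_sol_le : ∑ j, ‖i.sol j‖ ≤ 19 * ((W.C + 1) * cf.t₀) := by
  set A := (W.C + 1) * cf.t₀ with hA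
  have hA0 : 0 ≤ A := mul_nonneg (by linarith [W.C_nonneg]) cf.t₀_pos.le
  have hα := cf.α_pos
  refine le_of_pow_le_pow_left₀ two_ne_zero (by positivity)
    ((sq_sum_le_interp (fun j => ‖i.sol j‖) hα).trans ?_)
  have h1 : ∑ j, ‖i.sol j‖ ^ 2 ≤ 6 * A ^ 2 * cf.α := by
    rw [← PiLp.norm_sq_eq_of_L2]; exact i.norm_sq_sol_le
  have h2 := sum_sq_mul_proj_le (N := cf.N) (i.continuous_val i.sol) (i.periodic_val _)
    i.avg_sq_val_translate
  rw [i.proj_sol] at h2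
  have e1 : (∑ j, ‖i.sol j‖ ^ 2) / cf.α ≤ 6 * A ^ 2 := by rwa [div_le_iff₀ hα]
  have e2 : cf.α * ∑ j : Fin cf.N, ((j : ℝ) + 1) ^ 2 * ‖i.sol j‖ ^ 2 ≤ 160 * A ^ 2 := by
    refine (mul_le_mul_of_nonneg_left h2 hα.le).trans (le_of_eq ?_)
    field_simp; ring
  nlinarith [sq_nonneg A]

theorem norm_w_le (θ : ℝ) : ‖i.w θ‖ ≤ 19 * ((W.C + 1) * cf.t₀) :=
  (norm_rv_le _).trans ((norm_pol_le _ (norm_cir θ).le).trans i.sum_norm_sol_le)

theorem norm_val_le (θ : ℝ) : ‖i.val i.sol θ‖ ≤ 9 * ((W.C + 1) * cf.t₀) := by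
  have h := i.norm_val_sub_base θ
  have he : ‖W.H.e i.x i.a‖ ≤ W.C * cf.t₀ := by
    have h0 := W.lip_t i.x (W.sub (W.mem_two i.hx)) i.a i.a_mem' 0
      ⟨le_rfl, W.H.t₀_pos.le⟩
    rw [W.H.e_zero i.x (W.sub (W.mem_two i.hx)), sub_zero, sub_zero,
      abs_of_nonneg i.a_mem'.1] at h0
    exact h0.trans (mul_le_mul_of_nonneg_left i.a_mem.2 W.C_nonneg)
  have hA0 : 0 ≤ (W.C + 1) * cf.t₀ := mul_nonneg (by linarith [W.C_nonneg]) cf.t₀_pos.le
  have hb := mul_le_of_le_one_right hA0 (bump_le_one cf.α 2 θ)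
  have hw := i.norm_w_le θ
  have := norm_sub_norm_le (i.val i.sol θ) (W.H.e i.x i.a)
  have := cf.t₀_pos
  linarith

/-- The mean height. -/
def mean : Rn k := avg (i.val i.sol)

theorem norm_mean_le : ‖i.mean‖ ≤ 9 * ((W.C + 1) * cf.t₀) :=
  (norm_avg_le _).trans ((avg_mono (i.continuous_val _).norm continuous_const i.norm_val_le).trans
    (le_of_eq (avg_const _)))

theorem norm_val_sub_mean (θ : ℝ) (hN : 0 < cf.N) :
    ‖i.val i.sol θ - (i.mean + iv (bd i.sol θ))‖ ≤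
      Real.sqrt (5 * (32 * ((W.C + 1) * cf.t₀) ^ 2 / cf.α) / cf.N) := by
  have h := norm_sub_bd_le (i.continuous_val i.sol) (i.periodic_val _) i.avg_sq_val_translate hN θ
  rwa [i.proj_sol] at h

/-- The disc. -/
def disc (ζ : ℂ) : Mod m k := (i.x.1, mkC i.x.2 (P.h i.x + i.mean) + pol i.sol ζ)

theorem norm_disc_sub {ζ : ℂ} (hζ : ‖ζ‖ ≤ 1) :
    ‖i.disc ζ - lift P.h i.x 0‖ ≤ 28 * ((W.C + 1) * cf.t₀) := by
  have e : i.disc ζ - lift P.h i.x 0 = (0, mkC 0 i.mean + pol i.sol ζ) := by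
    rw [disc, lift, Prod.mk_sub_mk, sub_self, add_sub_right_comm, mkC_sub, sub_self, add_zero,
      add_sub_cancel_left]
  rw [e, Prod.norm_def]
  simp only [norm_zero]
  rw [max_eq_right (norm_nonneg _)]
  refine (norm_add_le _ _).trans ?_
  rw [norm_mkC_zero_left]
  have := i.norm_mean_le
  have := (norm_pol_le i.sol hζ).trans i.sum_norm_sol_le
  linarith

theorem disc_zero : i.disc 0 = lift P.h i.x i.mean := by
  simp [disc, lift, pol]

/-- The boundary lies near the path. -/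
theorem norm_disc_cir_sub (hw : ∀ θ, ‖i.w θ‖ ≤ W.b) (hN : 0 < cf.N) (θ : ℝ) :
    ‖i.disc (cir θ) - lift P.h (W.pt i.x (i.w θ)) (W.H.e (W.pt i.x (i.w θ)) (i.tm θ))‖ ≤
      ‖i.bb θ‖ + Real.sqrt (5 * (32 * ((W.C + 1) * cf.t₀) ^ 2 / cf.α) / cf.N) := by
  set y := W.pt i.x (i.w θ) with hy
  have hpt : y = (i.x.1, i.x.2 + i.w θ) := by
    rw [hy, Win.pt, clp_eq (hw θ), ins]; simp [Prod.ext_iff]
  have e : i.disc (cir θ) - lift P.h y (W.H.e y (i.tm θ)) =
      (0, mkC 0 (i.bb θ - (i.val i.sol θ - (i.mean + iv (bd i.sol θ))))) := by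
    rw [disc, lift, hpt, Prod.mk_sub_mk, sub_self, show pol i.sol (cir θ) = bd i.sol θ from rfl,
      ← mkC_rv_iv (bd i.sol θ), mkC_add, mkC_sub, iv_mkC, ← hpt]
    refine congrArg₂ Prod.mk rfl (congrArg₂ mkC ?_ ?_)
    · simp [hpt, w]
    · simp only [val, Win.field, w] at *
      rw [← hy]
      abel
  rw [e, Prod.norm_def]
  simp only [norm_zero]
  rw [max_eq_right (norm_nonneg _), norm_mkC_zero_left]
  exact (norm_sub_le _ _).trans (add_le_add le_rfl (i.norm_val_sub_mean θ hN))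

end Inp

end

end Vale.Agent.P274.Full
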