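import Vale.Agent.P274.Full.Inner.Center

/-!
Balls of quadratic size inside the domain above a window of the edge.
-/

open Filter Metric Set Function Topology MeasureTheory

namespace Vale.Agent.P274.Full

noncomputable section

variable {N₀ m k : ℕ} {D : CDom N₀} {P : Patch D m k}

theorem Chart.isOpen_Uc {n l : ℕ} (φ : Chart D n l) : IsOpen φ.Uc := by
  have h := φ.diff_ψ.continuousOn.isOpen_inter_preimage φ.isOpen_W D.isOpen_O
  convert h using 1
  ext x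
  simp only [Chart.Uc, mem_ofPred_eq, mem_inter_iff, mem_preimage, D.U_eq]
  exact ⟨fun h => ⟨h.1, h.2.2⟩, fun h => ⟨h.1, (φ.maps_ψ x h.1).1, h.2⟩⟩

theorem continuous_lift : Continuous fun p : (Cn m × Rn k) × Rn k =>
    ((p.1.1, mkC p.1.2 p.2) : Mod m k) :=
  (continuous_fst.comp continuous_fst).prodMk
    (continuous_mkC.comp ((continuous_snd.comp continuous_fst).prodMk continuous_snd))

/-- A neighbourhood of the edge in the chart. -/
theorem Win.exists_edge_radius (W : Win P) :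
    ∃ r : ℝ, 0 < r ∧ ∀ x ∈ closedBall W.x₀ W.R, ∀ y : Mod m k,
      ‖y - lift P.h x 0‖ < r → y ∈ P.W := by
  have hS : closedBall W.x₀ W.R ⊆ P.S := fun x hx => W.H.sub (W.sub (W.mem_two hx))
  have hc : ContinuousOn (fun x => lift P.h x 0) (closedBall W.x₀ W.R) := by
    simp only [lift, add_zero]
    exact continuous_lift.comp_continuousOn
      (continuousOn_id.prodMk (P.smooth_h.continuousOn.mono hS))
  obtain ⟨r, hr, hsub⟩ := ((isCompact_closedBall W.x₀ W.R).image_of_continuousOn hc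
    ).exists_thickening_subset_open P.isOpen_W (image_subset_iff.2 fun x hx => P.edge_W x (hS hx))
  exact ⟨r, hr, fun x hx y hy =>
    hsub (mem_thickening_iff.2 ⟨_, mem_image_of_mem _ hx, by rwa [dist_eq_norm]⟩)⟩

/-- A tube around the path over a compact range of heights. -/
theorem Win.exists_tube (W : Win P) {δ T : ℝ} (hδ : 0 < δ) (hT : T ≤ W.H.t₀) :
    ∃ r : ℝ, 0 < r ∧ ∀ x ∈ closedBall W.x₀ (2 * W.R), ∀ t ∈ Icc δ T, ∀ y : Mod m k,
      ‖y - lift P.h x (W.H.e x t)‖ < r → y ∈ P.toChart.Uc := by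
  set K : Set ((Cn m × Rn k) × ℝ) := closedBall W.x₀ (2 * W.R) ×ˢ Icc δ T
  have hK : IsCompact K := (isCompact_closedBall _ _).prod isCompact_Icc
  have hmaps : ∀ p ∈ K, p ∈ W.H.S' ×ˢ Icc 0 W.H.t₀ := fun p hp =>
    ⟨W.sub hp.1, hδ.le.trans hp.2.1, hp.2.2.trans hT⟩
  have hc : ContinuousOn (fun p : (Cn m × Rn k) × ℝ => lift P.h p.1 (W.H.e p.1 p.2)) K :=
    continuous_lift.comp_continuousOn (continuousOn_fst.prodMk
      ((P.smooth_h.continuousOn.comp continuousOn_fst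
        fun p hp => W.H.sub (hmaps p hp).1).add (W.H.cont.mono hmaps)))
  obtain ⟨r, hr, hsub⟩ := (hK.image_of_continuousOn hc).exists_thickening_subset_open
    P.toChart.isOpen_Uc (image_subset_iff.2 fun p hp =>
      W.H.mem p.1 (W.sub hp.1) p.2 ⟨hδ.trans_le hp.2.1, hp.2.2.trans hT⟩)
  exact ⟨r, hr, fun x hx t ht y hy =>
    hsub (mem_thickening_iff.2 ⟨_, ⟨(x, t), ⟨hx, ht⟩, rfl⟩, by rwa [dist_eq_norm]⟩)⟩

/-- The centre of a disc lies in the domain. -/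
theorem Inp.lift_mean_mem (hD : DiscStmt) {W : Win P} {cf : Cfg W} (i : Inp cf) (hs : i.s = 1)
    {rW r₀ r₁ : ℝ} (hN : 0 < cf.N)
    (hW : ∀ x ∈ closedBall W.x₀ W.R, ∀ y : Mod m k, ‖y - lift P.h x 0‖ < rW → y ∈ P.W)
    (hsmall : 28 * ((W.C + 1) * cf.t₀) < rW) (hwb : 19 * ((W.C + 1) * cf.t₀) ≤ W.b)
    (h₀ : ∀ x ∈ closedBall W.x₀ (2 * W.R), ∀ t ∈ Icc cf.t₀ cf.t₀, ∀ y : Mod m k,
      ‖y - lift P.h x (W.H.e x t)‖ < r₀ → y ∈ P.toChart.Uc)
    (h₁ : ∀ x ∈ closedBall W.x₀ (2 * W.R), ∀ t ∈ Icc (cf.α * cf.t₀) cf.t₀, ∀ y : Mod m k,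
      ‖y - lift P.h x (W.H.e x t)‖ < r₁ → y ∈ P.toChart.Uc)
    (hβ : ‖i.β‖ ≤ r₀ / 2)
    (he₀ : Real.sqrt (5 * (32 * ((W.C + 1) * cf.t₀) ^ 2 / cf.α) / cf.N) < r₀ / 2)
    (he₁ : Real.sqrt (5 * (32 * ((W.C + 1) * cf.t₀) ^ 2 / cf.α) / cf.N) < r₁) :
    lift P.h i.x i.mean ∈ P.toChart.Uc := by
  set fam : Icc (0 : ℝ) 1 → Inp cf := fun s => ⟨i.x, i.β, s, i.hx, i.hβ, s.2⟩ with hfam
  set F : ℝ → ℂ → Cn N₀ := fun s ζ => P.ψ ((fam (projIcc 0 1 zero_le_one s)).disc ζ) with hF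
  have hdW : ∀ (s : Icc (0 : ℝ) 1) (ζ : ℂ), ‖ζ‖ ≤ 1 → (fam s).disc ζ ∈ P.W := fun s ζ hζ =>
    hW _ i.hx _ (((fam s).norm_disc_sub hζ).trans_lt hsmall)
  have hbdry : ∀ (s : Icc (0 : ℝ) 1) (θ : ℝ), (fam s).disc (cir θ) ∈ P.toChart.Uc := by
    intro s θ
    have hw : ∀ φ, ‖(fam s).w φ‖ ≤ W.b := fun φ => ((fam s).norm_w_le φ).trans hwb
    have h := (fam s).norm_disc_cir_sub hw hN θ
    have hy := W.pt_mem i.hx ((fam s).w θ)
    by_cases hb : bump cf.α 1 θ = 0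
    · refine h₁ _ hy _ ((fam s).tm_mem θ) _ (lt_of_le_of_lt h ?_)
      rw [show (fam s).bb θ = 0 by simp [Inp.bb, hb], norm_zero, zero_add]
      exact he₁
    · have ht : (fam s).tm θ = cf.t₀ := by
        simp only [Inp.tm, Inp.a, bump_plateau cf.α_pos hb]
        ring
      refine h₀ _ hy _ (by rw [ht]; exact left_mem_Icc.2 le_rfl) _ (lt_of_le_of_lt h ?_)
      have hbb : ‖(fam s).bb θ‖ ≤ ‖i.β‖ := by
        rw [Inp.bb, norm_smul, Real.norm_of_nonneg (mul_nonneg (fam s).hs.1 (bump_nonneg _ _ _))]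
        exact mul_le_of_le_one_left (norm_nonneg _)
          (mul_le_one₀ (fam s).hs.2 (bump_nonneg _ _ _) (bump_le_one _ _ _))
      linarith
  have hcs : Continuous fun s => (fam s).sol := by
    refine (LipschitzWith.of_dist_le_mul
      (K := Real.toNNReal (3 * ((2 * W.C + 1) * cf.t₀))) fun s t => ?_).continuous
    rw [dist_eq_norm, Subtype.dist_eq, Real.dist_eq]
    exact ((fam s).norm_sol_sub_param (fam t) rfl rfl).trans
      (mul_le_mul_of_nonneg_right (Real.le_coe_toNNReal _) (abs_nonneg _))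
  have hcm : Continuous fun s => (fam s).mean := by
    refine (LipschitzWith.of_dist_le_mul
      (K := Real.toNNReal (((cf.N : ℝ) * 3 + 1) * ((2 * W.C + 1) * cf.t₀))) fun s t => ?_).continuous
    rw [dist_eq_norm, Subtype.dist_eq, Real.dist_eq]
    exact ((fam s).norm_mean_sub_param (fam t) rfl rfl).trans
      (mul_le_mul_of_nonneg_right (Real.le_coe_toNNReal _) (abs_nonneg _))
  have hdc : Continuous fun p : Icc (0 : ℝ) 1 × ℂ => (fam p.1).disc p.2 := by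
    have e1 : Continuous fun p : Icc (0 : ℝ) 1 × ℂ => mkC i.x.2 (P.h i.x + (fam p.1).mean) :=
      continuous_mkC.comp (Continuous.prodMk continuous_const
        (Continuous.add continuous_const (hcm.comp continuous_fst)))
    have e2 : Continuous fun p : Icc (0 : ℝ) 1 × ℂ => pol (fam p.1).sol p.2 :=
      continuous_finsetSum _ fun j _ => (continuous_snd.pow _).smul
        (((PiLp.continuous_apply 2 (fun _ : Fin cf.N => Cn k) j).comp hcs).comp continuous_fst)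
    exact Continuous.prodMk (continuous_const (y := i.x.1)) (e1.add e2)
  have hmem : ∀ (s : ℝ) (ζ : ℂ), ζ ∈ closedBall (0 : ℂ) 1 →
      (fam (projIcc 0 1 zero_le_one s)).disc ζ ∈ P.W := fun s ζ hζ =>
    hdW _ ζ (by simpa using hζ)
  have key := hD N₀ D F
    (P.diff_ψ.continuousOn.comp
      (hdc.comp (((continuous_projIcc (h := zero_le_one (α := ℝ))).comp continuous_fst).prodMk continuous_snd)).continuousOn
      fun p hp => hmem p.1 p.2 hp.2)
    (fun s _ => P.diff_ψ.comp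
      (((differentiable_const i.x.1).prodMk ((differentiable_const _).add
        (Differentiable.fun_sum fun j _ => (differentiable_id.pow _).smul_const _))).differentiableOn)
      fun ζ hζ => hmem s ζ (ball_subset_closedBall hζ))
    (fun s _ ζ hζ => (P.maps_ψ _ (hmem s ζ hζ)).1)
    (fun ζ _ => ?_) (fun s _ ζ hζ => ?_)
  · have h := key (mem_closedBall_self zero_le_one : (0 : ℂ) ∈ closedBall 0 1)
    have h1 : fam (projIcc 0 1 zero_le_one (1 : ℝ)) = i := by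
      obtain ⟨x, β, s, _, _, _⟩ := i
      simp only at hs
      subst hs
      simp [hfam, projIcc_right]
    simp only [hF, h1] at h
    rw [Inp.disc_zero] at h
    exact ⟨by simpa [Inp.disc_zero] using hW _ i.hx _ ((i.norm_disc_sub (ζ := 0) (by simp)).trans_lt
      hsmall), h⟩
  · simp only [hF, projIcc_left]
    set j := fam ⟨0, left_mem_Icc.2 zero_le_one⟩
    have e : j.disc ζ = lift P.h i.x (W.H.e i.x cf.t₀) := by
      rw [Inp.disc, j.sol_eq_zero rfl, pol_zero, add_zero, j.mean_eq rfl]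
      rfl
    show P.ψ (j.disc ζ) ∈ D.U
    rw [e]
    exact (W.H.mem i.x (W.sub (W.mem_two i.hx)) cf.t₀ ⟨cf.t₀_pos, cf.t₀_le⟩).2
  · obtain ⟨θ, rfl⟩ := exists_cir (mem_sphere_zero_iff_norm.1 hζ)
    exact (hbdry _ θ).2

/-- Balls of quadratic size inside the domain above a window of the edge. -/
theorem inner : HornStmt → DiscStmt → InnerStmt := by
  classical
  intro hH hD N₀ m k D P
  obtain ⟨H⟩ := hH N₀ m k D P
  obtain ⟨W, -⟩ := exists_win H
  obtain ⟨rW, hrW, hW⟩ := W.exists_edge_radius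
  have hC := W.C_nonneg
  have hL := W.L_nonneg
  have hb : 0 < W.b := div_pos W.R_pos (by positivity)
  have hk₆ : 0 ≤ Inp.k₆ W := by rw [Inp.k₆]; positivity
  have hk₄ : 0 ≤ Inp.k₄ W := by rw [Inp.k₄]; positivity
  obtain ⟨t₀, ht₀, ht₁, ht₂, ht₃, ht₄, ht₅, ht₆⟩ : ∃ t : ℝ, 0 < t ∧ t ≤ W.H.t₀ ∧ t ≤ 1 ∧
      W.C * t ≤ 1 / 12 ∧ 19 * ((W.C + 1) * t) ≤ W.b ∧ 28 * ((W.C + 1) * t) < rW ∧
      16 * Inp.k₆ W * t ≤ 1 / 2 := by
    set M : ℝ := 1 + 12 * (W.C + 1) + 19 * (W.C + 1) / W.b + 29 * (W.C + 1) / rW +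
      32 * Inp.k₆ W + 1 / W.H.t₀ with hM
    have p1 : 0 ≤ 19 * (W.C + 1) / W.b := by positivity
    have p2 : 0 ≤ 29 * (W.C + 1) / rW := by positivity
    have p3 : 0 ≤ 1 / W.H.t₀ := le_of_lt (one_div_pos.2 W.H.t₀_pos)
    have hM1 : 1 ≤ M := by linarith
    have hMp : 0 < M := by linarith
    have key : ∀ c : ℝ, c ≤ M → c * M⁻¹ ≤ 1 := fun c hc => by
      rw [← div_eq_mul_inv, div_le_one hMp]; exact hc
    refine ⟨M⁻¹, inv_pos.2 hMp, ?_, inv_le_one_of_one_le₀ hM1, ?_, ?_, ?_, ?_⟩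
    · have h := key (1 / W.H.t₀) (by linarith)
      rw [one_div_mul_eq_div, div_le_one W.H.t₀_pos] at h
      exact h
    · have h := key (12 * (W.C + 1)) (by linarith)
      have : 0 ≤ M⁻¹ := inv_nonneg.2 hMp.le
      linarith
    · have h := key (19 * (W.C + 1) / W.b) (by linarith)
      rw [div_mul_eq_mul_div, div_le_one hb] at h
      linarith
    · have h := key (29 * (W.C + 1) / rW) (by linarith)
      rw [div_mul_eq_mul_div, div_le_one hrW] at h
      have : 0 < (W.C + 1) * M⁻¹ := mul_pos (by linarith) (inv_pos.2 hMp)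
      linarith
    · have h := key (32 * Inp.k₆ W) (by linarith)
      linarith
  obtain ⟨r₀, hr₀, h₀⟩ := W.exists_tube (δ := t₀) ht₀ ht₁
  set ρ := min t₀ (r₀ / 2) with hρ
  have hρ0 : 0 < ρ := lt_min ht₀ (by linarith)
  set A : ℝ := 5 * (32 * ((W.C + 1) * t₀) ^ 2) with hA
  have hchoice : ∀ l : Ioo (0 : ℝ) 1, ∃ (N : ℕ) (r₁ : ℝ), 0 < N ∧
      (∀ x ∈ closedBall W.x₀ (2 * W.R), ∀ t ∈ Icc ((l : ℝ) ^ 2 * t₀) t₀, ∀ y : Mod m k,
        ‖y - lift P.h x (W.H.e x t)‖ < r₁ → y ∈ P.toChart.Uc) ∧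
      Real.sqrt (5 * (32 * ((W.C + 1) * t₀) ^ 2 / (l : ℝ) ^ 2) / N) < min r₁ (r₀ / 2) := by
    intro l
    have hl2 : 0 < (l : ℝ) ^ 2 := pow_pos l.2.1 2
    obtain ⟨r₁, hr₁, h₁⟩ := W.exists_tube (δ := (l : ℝ) ^ 2 * t₀) (mul_pos hl2 ht₀) ht₁
    set ε := min r₁ (r₀ / 2)
    have hε : 0 < ε := lt_min hr₁ (by linarith)
    obtain ⟨N, hN⟩ := exists_nat_gt (5 * (32 * ((W.C + 1) * t₀) ^ 2 / (l : ℝ) ^ 2) / ε ^ 2)
    have hN0 : (0 : ℝ) < N := lt_of_le_of_lt (by positivity) hN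
    refine ⟨N, r₁, by exact_mod_cast hN0, h₁, ?_⟩
    rw [Real.sqrt_lt' hε, div_lt_iff₀ hN0]
    rw [div_lt_iff₀ (pow_pos hε 2)] at hN
    linarith
  choose Nl rl hNl htube herr using hchoice
  set cfg : Ioo (0 : ℝ) 1 → Cfg W := fun l =>
    ⟨t₀, (l : ℝ) ^ 2, Nl l, ht₀, ht₁, ht₂, ht₃, pow_pos l.2.1 2,
      pow_le_one₀ l.2.1.le l.2.2.le⟩ with hcfg
  set inp : ∀ (l : Ioo (0 : ℝ) 1) (x : Cn m × Rn k), x ∈ closedBall W.x₀ W.R →
      closedBall (0 : Rn k) ρ → Inp (cfg l) := fun l x hx β =>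
    ⟨x, β, 1, hx, (mem_closedBall_zero_iff.1 β.2).trans (min_le_left _ _),
      right_mem_Icc.2 zero_le_one⟩ with hinp
  have hwb : ∀ l x hx β θ, ‖(inp l x hx β).w θ‖ ≤ W.b := fun l x hx β θ =>
    ((inp l x hx β).norm_w_le θ).trans ht₄
  set η : Cn m × Rn k → ℝ → Rn k := fun x l =>
    if h : l ∈ Ioo (0 : ℝ) 1 ∧ x ∈ closedBall W.x₀ W.R then
      (l ^ 2)⁻¹ • (inp ⟨l, h.1⟩ x h.2 ⟨0, mem_closedBall_self hρ0.le⟩).core
    else 0 with hη
  set C₇ : ℝ := 3 * W.L * (W.C + 1) ^ 2 + 2 * W.C + Inp.k₆ W * Inp.k₄ W with hC7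
  have hc7 : 3 * W.L * ((W.C + 1) * t₀) ^ 2 + 2 * W.C * t₀ ≤
      3 * W.L * (W.C + 1) ^ 2 + 2 * W.C := by
    have e1 : ((W.C + 1) * t₀) ^ 2 ≤ (W.C + 1) ^ 2 :=
      pow_le_pow_left₀ (by positivity) (mul_le_of_le_one_right (by linarith) ht₂) 2
    have e2 := mul_le_mul_of_nonneg_left e1 (by positivity : 0 ≤ 3 * W.L)
    have e3 := mul_le_mul_of_nonneg_left ht₂ (by positivity : 0 ≤ 2 * W.C)
    linarith
  refine ⟨⟨ball W.x₀ W.R, isOpen_ball, nonempty_ball.2 W.R_pos,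
    fun x hx => W.H.sub (W.sub (W.mem_two (ball_subset_closedBall hx))), ρ / 32,
    by linarith, C₇, 1, one_pos, η, fun x hx l hl => ?_, fun x hx y hy l hl => ?_,
    fun x hx l hl d hd => ?_⟩⟩
  · have hxc := ball_subset_closedBall hx
    have hl2 : 0 < l ^ 2 := pow_pos hl.1 2
    simp only [hη]
    rw [dif_pos ⟨hl, hxc⟩, norm_smul, norm_inv, Real.norm_of_nonneg hl2.le, inv_mul_le_iff₀ hl2]
    refine ((inp ⟨l, hl⟩ x hxc _).norm_core_le rfl (hwb _ _ _ _)).trans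
      (mul_le_mul_of_nonneg_left (hc7.trans ?_) hl2.le)
    rw [hC7]
    linarith [mul_nonneg hk₆ hk₄]
  · have hxc := ball_subset_closedBall hx
    have hyc := ball_subset_closedBall hy
    have hl2 : 0 < l ^ 2 := pow_pos hl.1 2
    simp only [hη]
    rw [dif_pos ⟨hl, hxc⟩, dif_pos ⟨hl, hyc⟩, ← smul_sub, norm_smul, norm_inv,
      Real.norm_of_nonneg hl2.le, inv_mul_le_iff₀ hl2]
    refine ((inp ⟨l, hl⟩ x hxc _).norm_core_sub_le (inp ⟨l, hl⟩ y hyc _) rfl rfl (hwb _ _ _ _)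
      (hwb _ _ _ _)).trans (mul_le_mul_of_nonneg_left ?_ hl2.le)
    simp only [hinp, hcfg, sub_self, norm_zero, add_zero]
    have e1 := mul_le_mul_of_nonneg_right hc7 (norm_nonneg (x - y))
    have e2 : Inp.k₆ W * t₀ * (Inp.k₄ W * t₀ * ‖x - y‖) ≤
        Inp.k₆ W * Inp.k₄ W * ‖x - y‖ := by
      calc Inp.k₆ W * t₀ * (Inp.k₄ W * t₀ * ‖x - y‖)
          = t₀ * t₀ * (Inp.k₆ W * Inp.k₄ W * ‖x - y‖) := by ring
        _ ≤ _ := mul_le_of_le_one_left (by positivity) (mul_le_one₀ ht₂ ht₀.le ht₂)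
    rw [hC7]
    linarith
  · have hxc := ball_subset_closedBall hx
    have hl2 : 0 < l ^ 2 := pow_pos hl.1 2
    set L : Ioo (0 : ℝ) 1 := ⟨l, hl⟩
    have hl1 : l ^ 2 ≤ 1 := pow_le_one₀ hl.1.le hl.2.le
    set μ := avg (bump (l ^ 2) 1)
    have hμ : l ^ 2 / 16 ≤ μ := by
      refine le_trans ?_ (le_avg_bump_one hl2 hl1)
      rw [div_le_div_iff₀ (by norm_num) (by positivity)]
      nlinarith [Real.pi_lt_four, hl2]
    have hμ0 : 0 < μ := lt_of_lt_of_le (by positivity) hμ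
    set T : closedBall (0 : Rn k) ρ → Rn k := fun β =>
      μ⁻¹ • (l ^ 2 • d - (inp L x hxc β).core) with hT
    set z : closedBall (0 : Rn k) ρ := ⟨0, mem_closedBall_self hρ0.le⟩
    have hlip : ∀ β γ, ‖T β - T γ‖ ≤ 1 / 2 * ‖(β : Rn k) - γ‖ := by
      intro β γ
      simp only [hT]
      rw [← smul_sub, norm_smul, norm_inv, Real.norm_of_nonneg hμ0.le, sub_sub_sub_cancel_left,
        norm_sub_rev, inv_mul_le_iff₀ hμ0]
      refine ((inp L x hxc β).norm_core_sub_le (inp L x hxc γ) rfl rfl (hwb _ _ _ _)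
        (hwb _ _ _ _)).trans ?_
      simp only [hinp, hcfg, sub_self, norm_zero, mul_zero, zero_add]
      calc l ^ 2 * (Inp.k₆ W * t₀ * ‖(β : Rn k) - γ‖)
          = l ^ 2 / 16 * ((16 * Inp.k₆ W * t₀) * ‖(β : Rn k) - γ‖) := by ring
        _ ≤ μ * (1 / 2 * ‖(β : Rn k) - γ‖) :=
            mul_le_mul hμ (mul_le_mul_of_nonneg_right ht₆ (norm_nonneg _)) (by positivity) hμ0.le
    have hT0 : ‖T z‖ ≤ ρ / 2 := by
      simp only [hη] at hd
      rw [dif_pos ⟨hl, hxc⟩] at hd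
      simp only [hT]
      rw [norm_smul, norm_inv, Real.norm_of_nonneg hμ0.le, inv_mul_le_iff₀ hμ0]
      calc ‖l ^ 2 • d - (inp L x hxc z).core‖
          = l ^ 2 * ‖d - (l ^ 2)⁻¹ • (inp L x hxc z).core‖ := by
            rw [show l ^ 2 • d - (inp L x hxc z).core =
              l ^ 2 • (d - (l ^ 2)⁻¹ • (inp L x hxc z).core) by rw [smul_sub, smul_inv_smul₀ hl2.ne'],
              norm_smul, Real.norm_of_nonneg hl2.le]
        _ ≤ l ^ 2 * (ρ / 32) := mul_le_mul_of_nonneg_left hd.le hl2.le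
        _ = l ^ 2 / 16 * (ρ / 2) := by ring
        _ ≤ μ * (ρ / 2) := mul_le_mul_of_nonneg_right hμ (by linarith)
    have hball : ∀ β, T β ∈ closedBall (0 : Rn k) ρ := fun β => by
      rw [mem_closedBall_zero_iff]
      have h1 := hlip β z
      simp only [z, sub_zero] at h1
      have h2 := mem_closedBall_zero_iff.1 β.2
      have h3 := norm_sub_norm_le (T β) (T z)
      simp only [z] at h3 hT0
      linarith
    have : CompleteSpace (closedBall (0 : Rn k) ρ) := isClosed_closedBall.completeSpace_coe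
    have : Nonempty (closedBall (0 : Rn k) ρ) := ⟨z⟩
    have hcon : ContractingWith (1 / 2) fun β => (⟨T β, hball β⟩ : closedBall (0 : Rn k) ρ) :=
      ⟨by rw [← NNReal.coe_lt_coe]; norm_num, LipschitzWith.of_dist_le_mul fun β γ => by
        simpa [Subtype.dist_eq, dist_eq_norm] using hlip β γ⟩
    set β := ContractingWith.fixedPoint _ hcon
    have hfix : T β = β := congrArg Subtype.val hcon.fixedPoint_isFixedPt
    set i := inp L x hxc β
    have hmean : i.mean = l ^ 2 • d := by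
      rw [i.mean_eq_core (hwb _ _ _ _)]
      show i.core + (1 * μ) • (β : Rn k) = _
      conv_lhs => rw [← hfix]
      simp only [hT]
      rw [one_mul, smul_inv_smul₀ hμ0.ne', add_sub_cancel]
    have h := i.lift_mean_mem hD rfl (hNl L) hW ht₅ ht₄ h₀ (htube L)
      ((mem_closedBall_zero_iff.1 β.2).trans (min_le_right _ _))
      ((herr L).trans_le (min_le_right _ _)) ((herr L).trans_le (min_le_left _ _))
    rw [hmean] at h
    exact h

end

end Vale.Agent.P274.Full
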