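import Vale.Agent.P274.Full.Inner.Circle
import Mathlib.Analysis.Fourier.AddCircle

/-!
The imaginary part of the disc of a function is uniformly close to the function when its modulus
of continuity in the mean is linear.
-/

open Filter Metric Set Function Topology MeasureTheory
open scoped InnerProductSpace ComplexConjugate

namespace Vale.Agent.P274.Full

noncomputable section

variable {k : ℕ} {v : ℝ → Rn k} {K : ℝ}

/-- The coefficient `2i v̂(n + 1)`. -/
def cf (v : ℝ → Rn k) (n : ℕ) : Cn k :=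
  (2 * Complex.I) • avg fun θ => conj (cir θ) ^ (n + 1) • ofR k (v θ)

theorem sum_range_cf_sq_le (hv : Continuous v) (hp : Periodic v (2 * Real.pi))
    (hK : ∀ τ, avg (fun θ => ‖v (θ + τ) - v θ‖ ^ 2) ≤ K * τ ^ 2) (M : ℕ) :
    ∑ j ∈ Finset.range M, ((j : ℝ) + 1) ^ 2 * ‖cf v j‖ ^ 2 ≤ 5 * K := by
  have h := sum_sq_mul_proj_le (N := M) hv hp hK
  rwa [← Fin.sum_univ_eq_sum_range]

theorem sum_Ico_norm_cf_le (hv : Continuous v) (hp : Periodic v (2 * Real.pi))
    (hK : ∀ τ, avg (fun θ => ‖v (θ + τ) - v θ‖ ^ 2) ≤ K * τ ^ 2) {N : ℕ} (hN : 0 < N) (M : ℕ) :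
    ∑ j ∈ Finset.Ico N M, ‖cf v j‖ ≤ Real.sqrt (5 * K / N) := by
  rcases le_total M N with h | h
  · rw [Finset.Ico_eq_empty_of_le h, Finset.sum_empty]
    exact Real.sqrt_nonneg _
  refine Real.le_sqrt_of_sq_le ?_
  have hcs := Finset.sum_sq_le_sum_mul_sum_of_sq_le_mul (Finset.Ico N M)
    (r := fun j => ‖cf v j‖) (f := fun j => (((j : ℝ) + 1) ^ 2)⁻¹)
    (g := fun j => ((j : ℝ) + 1) ^ 2 * ‖cf v j‖ ^ 2) (fun j _ => by positivity)
    (fun j _ => by positivity) fun j _ => le_of_eq (by field_simp)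
  refine hcs.trans ?_
  have h1 : ∑ j ∈ Finset.Ico N M, (((j : ℝ) + 1) ^ 2)⁻¹ ≤ (N : ℝ)⁻¹ := by
    have key : ∀ j ∈ Finset.Ico N M, (((j : ℝ) + 1) ^ 2)⁻¹ ≤
        (j : ℝ)⁻¹ - (((j + 1 : ℕ) : ℝ))⁻¹ := by
      intro j hj
      have hj0 : (0 : ℝ) < j := by exact_mod_cast hN.trans_le (Finset.mem_Ico.1 hj).1
      push_cast
      rw [inv_sub_inv hj0.ne' (by positivity), inv_eq_one_div,
        div_le_div_iff₀ (by positivity) (by positivity)]
      nlinarith
    refine (Finset.sum_le_sum key).trans ?_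
    have h2 := Finset.sum_Ico_sub (fun j : ℕ => ((j : ℝ))⁻¹) h
    rw [show (∑ i ∈ Finset.Ico N M, ((i : ℝ)⁻¹ - ((i + 1 : ℕ) : ℝ)⁻¹)) =
      -∑ i ∈ Finset.Ico N M, (((i + 1 : ℕ) : ℝ)⁻¹ - (i : ℝ)⁻¹) by
        rw [← Finset.sum_neg_distrib]; simp, h2]
    have : 0 ≤ ((M : ℝ))⁻¹ := by positivity
    linarith
  have h3 : ∑ j ∈ Finset.Ico N M, ((j : ℝ) + 1) ^ 2 * ‖cf v j‖ ^ 2 ≤ 5 * K :=
    (Finset.sum_le_sum_of_subset_of_nonneg
      (by intro j hj; exact Finset.mem_range.2 (Finset.mem_Ico.1 hj).2)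
      fun j _ _ => by positivity).trans (sum_range_cf_sq_le hv hp hK M)
  refine (mul_le_mul h1 h3 (Finset.sum_nonneg fun j _ => by positivity) (by positivity)).trans
    (le_of_eq ?_)
  rw [mul_comm, div_eq_mul_inv]

theorem summable_norm_cf (hv : Continuous v) (hp : Periodic v (2 * Real.pi))
    (hK : ∀ τ, avg (fun θ => ‖v (θ + τ) - v θ‖ ^ 2) ≤ K * τ ^ 2) :
    Summable fun n => ‖cf v n‖ := by
  refine summable_of_sum_range_le (c := ‖cf v 0‖ + Real.sqrt (5 * K / (1 : ℕ)))
    (fun n => norm_nonneg _) fun M => ?_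
  rcases Nat.eq_zero_or_pos M with rfl | hM
  · rw [Finset.sum_range_zero]
    exact add_nonneg (norm_nonneg (cf v 0)) (Real.sqrt_nonneg _)
  rw [Finset.range_eq_Ico, Finset.sum_eq_sum_Ico_succ_bot hM]
  exact add_le_add le_rfl (sum_Ico_norm_cf_le hv hp hK one_pos M)

/-- The Fourier series of a coordinate. -/
theorem hasSum_iv_cf (hv : Continuous v) (hp : Periodic v (2 * Real.pi))
    (hK : ∀ τ, avg (fun θ => ‖v (θ + τ) - v θ‖ ^ 2) ≤ K * τ ^ 2) (θ : ℝ) (l : Fin k) :
    HasSum (fun n => (cir θ ^ (n + 1) * cf v n l).im) (v θ l - avg v l) := by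
  have : Fact (0 < 2 * Real.pi) := ⟨by positivity⟩
  set f : ℝ → ℂ := fun x => (v x l : ℂ)
  have hfp : Periodic f (2 * Real.pi) := fun x => by simp only [f, hp x]
  have hfc : Continuous f :=
    Complex.continuous_ofReal.comp ((PiLp.continuous_apply 2 _ l).comp hv)
  set F : C(AddCircle (2 * Real.pi), ℂ) :=
    ⟨hfp.lift, (QuotientAddGroup.isQuotientMap_mk _).continuous_iff.2 hfc⟩
  have hcoe : ∀ x : ℝ, F (x : AddCircle (2 * Real.pi)) = f x := fun x => hfp.lift_coe x
  have hcirpow : ∀ (n : ℕ) (x : ℝ), cir x ^ n = cir ((n : ℝ) * x) := by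
    intro n x
    rw [cir, cir, ← Complex.exp_nat_mul]
    push_cast; ring_nf
  have hfour : ∀ (n : ℤ) (x : ℝ),
      fourier n (x : AddCircle (2 * Real.pi)) = cir ((n : ℝ) * x) := by
    intro n x
    rw [fourier_coe_apply, cir]
    congr 1
    have hpi : (Real.pi : ℂ) ≠ 0 := by exact_mod_cast Real.pi_ne_zero
    push_cast
    field_simp
  have hcoef : ∀ n : ℤ, fourierCoeff F n = avg fun x => cir (-(n : ℝ) * x) * f x := by
    intro n
    rw [fourierCoeff_eq_intervalIntegral _ n 0, zero_add, avg, one_div]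
    congr 1
    refine intervalIntegral.integral_congr fun x _ => ?_
    simp only [hfour, hcoe, Int.cast_neg, smul_eq_mul]
  have hcf : ∀ n : ℕ, fourierCoeff F ((n : ℤ) + 1) = (2 * Complex.I)⁻¹ * cf v n l := by
    intro n
    have hc := continuous_cir
    rw [hcoef, cf, PiLp.smul_apply, smul_eq_mul, inv_mul_cancel_left₀ (by simp),
      show (avg fun x => conj (cir x) ^ (n + 1) • ofR k (v x)) l =
        avg fun x => conj (cir x) ^ (n + 1) * f x from ?_]
    · congr 1
      funext x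
      rw [conj_cir, hcirpow]
      push_cast; ring_nf
    rw [show (fun x => conj (cir x) ^ (n + 1) * f x) = fun x =>
      ((PiLp.proj 2 (fun _ : Fin k => ℂ) l : Cn k →L[ℂ] ℂ).restrictScalars ℝ)
        (conj (cir x) ^ (n + 1) • ofR k (v x)) from funext fun x => by
        simp [f, ofR_apply], avg_clm _ (by fun_prop)]
    rfl
  have hneg : ∀ n : ℤ, fourierCoeff F (-n) = conj (fourierCoeff F n) := by
    intro n
    have hc := continuous_cir
    rw [hcoef, hcoef, ← Complex.conjCLE_apply, ← ContinuousLinearEquiv.coe_coe,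
      ← avg_clm _ (by fun_prop)]
    congr 1
    funext x
    simp [f, conj_cir]
  have hnat : Summable fun n : ℕ => fourierCoeff F ((n : ℤ) + 1) := by
    refine Summable.of_norm_bounded (summable_norm_cf hv hp hK) fun n => ?_
    rw [hcf, norm_mul, norm_inv, norm_mul, Complex.norm_I, mul_one, Complex.norm_ofNat]
    have h1 := PiLp.norm_apply_le (cf v n) l
    linarith [norm_nonneg (cf v n l)]
  have hsum : Summable (fourierCoeff F) := by
    refine Summable.of_nat_of_neg_add_one ((summable_nat_add_iff 1).1 ?_) ?_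
    · exact hnat.congr fun n => by push_cast; rfl
    · refine Summable.of_norm ?_
      exact hnat.norm.congr fun n => by rw [hneg, RCLike.norm_conj]
  have h := (has_pointwise_sum_fourier_series_of_summable hsum (θ : AddCircle (2 * Real.pi))).nat_add_neg
  have h' := (hasSum_nat_add_iff' 1).2 h
  simp only [Finset.sum_range_one, Nat.cast_zero, neg_zero, hfour, Int.cast_zero, zero_mul] at h'
  have h0 : fourierCoeff F 0 = ((avg v l : ℝ) : ℂ) := by
    rw [hcoef]
    simp only [Int.cast_zero, neg_zero, zero_mul]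
    rw [show (fun x => cir 0 * f x) = fun x =>
      (Complex.ofRealCLM.comp (PiLp.proj 2 (fun _ : Fin k => ℝ) l)) (v x) from
      funext fun x => by simp [cir, f], avg_clm _ hv]
    rfl
  have h'' := Complex.reCLM.hasSum h'
  have key : HasSum (fun n => (cir θ ^ (n + 1) * cf v n l).im) _ := h''.congr_fun fun n => ?_
  swap
  · push_cast
    rw [hneg, hcf, hcirpow]
    push_cast
    rw [show -((n : ℝ) + 1) * θ = -(((n : ℝ) + 1) * θ) by ring, ← conj_cir]
    simp [Complex.mul_re, Complex.mul_im]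
    ring
  · convert key using 1
    simp only [Complex.reCLM_apply, h0, hcoe, f, cir, smul_eq_mul]
    simp

/-- The uniform tail bound. -/
theorem norm_sub_bd_le (hv : Continuous v) (hp : Periodic v (2 * Real.pi))
    (hK : ∀ τ, avg (fun θ => ‖v (θ + τ) - v θ‖ ^ 2) ≤ K * τ ^ 2) {N : ℕ} (hN : 0 < N) (θ : ℝ) :
    ‖v θ - (avg v + iv (bd (proj N v) θ))‖ ≤ Real.sqrt (5 * K / N) := by
  set T : ℕ → Rn k := fun M => ∑ n ∈ Finset.range M, iv (cir θ ^ (n + 1) • cf v n)
  have hbd : iv (bd (proj N v) θ) = T N := by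
    simp only [bd, pol, ← ivL_apply, map_sum, T]
    rw [← Fin.sum_univ_eq_sum_range]
    rfl
  have hvec : HasSum (fun n => iv (cir θ ^ (n + 1) • cf v n)) (v θ - avg v) := by
    have h := (EuclideanSpace.equiv (Fin k) ℝ).symm.hasSum'.2
      (Pi.hasSum.2 fun l => hasSum_iv_cf hv hp hK θ l)
    convert h using 1
    · funext n; ext l; simp [iv]
    · ext l; simp
  have ht : Tendsto (fun M => T M - T N) atTop (𝓝 (v θ - avg v - T N)) :=
    (hvec.tendsto_sum_nat).sub_const _
  rw [hbd, ← sub_sub]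
  refine le_of_tendsto ht.norm ((eventually_ge_atTop N).mono fun M hM => ?_)
  rw [← Finset.sum_Ico_eq_sub _ hM]
  refine (norm_sum_le _ _).trans ((Finset.sum_le_sum fun n _ => ?_).trans
    (sum_Ico_norm_cf_le hv hp hK hN M))
  refine (norm_iv_le _).trans (le_of_eq ?_)
  rw [norm_smul, norm_pow, norm_cir, one_pow, one_mul]

end

end Vale.Agent.P274.Full
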